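import Vale.Agent.P157.Parisi.Sphere.Perturb.Variance

/-!
The variance over the disorder of a log-partition function with a fixed base weight.
-/

noncomputable section

open MeasureTheory ProbabilityTheory
open scoped BigOperators NNReal ENNReal

namespace Vale.Agent.P157.Parisi.Full.Conc

open Vale.Agent.P157.Parisi.Perturb (absJ memLp_absJ variance_poisson_le)
open Vale.Agent.P157.Parisi.Sphere (Pts Conf)
open Vale.Agent.P157.Parisi.Sphere.Perturb (abs_feat_le totalH_eq abs_patH_le
  measurable_patH measurable_totalH field_part_variance)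
open Vale.Agent.P168.Limit (logZ)
open Vale.Agent.P168.Limit.SelfAvg (field abs_logZ_sub_le' integrable_logZ_field variance_prod_le
  abs_integral_sub_le)
open Vale.Agent.P168.Toolkit (efronStein memLp_sections integrable_count integral_count)

variable {N L : ℕ} {P : Pts N} {f : ℝ → ℝ} {A : ℝ}

/-- The log-partition function over a fixed base `H₀`. -/
def dz (f : ℝ → ℝ) (s : ℝ) (x : Fin L → ℝ) (H₀ : Conf P → ℝ) (d : Dis N L) : ℝ :=
  logZ fun σ => H₀ σ + Sphere.totalH f s x d σ

lemma abs_totalH_le (hb : ∀ z, |f z| ≤ A) (s : ℝ) (x : Fin L → ℝ) (d : Dis N L) (σ : Conf P) :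
    |Sphere.totalH f s x d σ| ≤ A * d.1 + (|s| * ∑ p, |x p|) * absJ d.2.2 := by
  rw [totalH_eq]
  refine (abs_add_le _ _).trans (add_le_add ((abs_patH_le hb _ _ σ).trans_eq (by simp)) ?_)
  rw [absJ, Finset.mul_sum]
  refine (Finset.abs_sum_le_sum_abs _ _).trans (Finset.sum_le_sum fun c _ => ?_)
  rw [abs_mul, abs_mul, abs_mul]
  refine mul_le_mul_of_nonneg_right ?_ (abs_nonneg _)
  refine (mul_le_of_le_one_right (by positivity) (abs_feat_le _ _)).trans ?_
  exact mul_le_mul_of_nonneg_left (Finset.single_le_sum (f := fun p => |x p|)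
    (fun _ _ => abs_nonneg _) (Finset.mem_univ c.1)) (abs_nonneg _)

lemma abs_dz_le (hb : ∀ z, |f z| ≤ A) (s : ℝ) (x : Fin L → ℝ) (H₀ : Conf P → ℝ) (d : Dis N L) :
    |dz f s x H₀ d| ≤ |logZ H₀| + (A * d.1 + (|s| * ∑ p, |x p|) * absJ d.2.2) := by
  have h := abs_logZ_sub_le' H₀ (Sphere.totalH (P := P) f s x d) (abs_totalH_le hb s x d)
  rw [dz]
  linarith [abs_sub_abs_le_abs_sub (logZ fun σ => H₀ σ + Sphere.totalH f s x d σ) (logZ H₀)]

lemma measurable_dz (hf : Continuous f) (s : ℝ) (x : Fin L → ℝ) (H₀ : Conf P → ℝ) :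
    Measurable (dz f s x H₀) :=
  (Finset.measurable_sum _ fun σ _ =>
    (((measurable_totalH hf s σ).comp measurable_prodMk_left).const_add (H₀ σ)).exp).log

lemma memLp_dz [NeZero N] (hf : Continuous f) (hb : ∀ z, |f z| ≤ A) (s μ : ℝ) (x : Fin L → ℝ)
    (H₀ : Conf P → ℝ) : MemLp (dz f s x H₀) 2 (disLaw N L μ) := by
  have h1 : MemLp (fun d : Dis N L => A * (d.1 : ℝ)) 2 (disLaw N L μ) :=
    ((Vale.Agent.P168.Toolkit.memLp_count _).comp_fst _).const_mul A
  have h2 := (memLp_const (|logZ H₀|)).add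
    (h1.add ((memLp_absJ (N := N) (L := L) μ).const_mul (|s| * ∑ p, |x p|)))
  exact h2.mono (measurable_dz hf s x H₀).aestronglyMeasurable (ae_of_all _ fun d => by
    rw [Real.norm_eq_abs, Real.norm_eq_abs]
    exact (abs_dz_le hb s x H₀ d).trans (le_abs_self _))

lemma memLp_dz_section [NeZero N] (hf : Continuous f) (hb : ∀ z, |f z| ≤ A) (s : ℝ)
    (x : Fin L → ℝ) (H₀ : Conf P → ℝ) (n : ℕ) :
    MemLp (fun w : (ℕ → Fin N → ℝ) × (PertIdx N L → ℝ) => dz f s x H₀ (n, w)) 2
      ((Measure.infinitePi fun _ : ℕ => gam (Fin N)).prod (gam (PertIdx N L))) := by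
  have h : MemLp (absJ (N := N) (L := L)) 2 (gam (PertIdx N L)) :=
    memLp_finsetSum _ fun c _ => (memLp_id_gaussianReal 2).abs.comp_measurePreserving
      (measurePreserving_eval (fun _ : PertIdx N L => gaussianReal 0 1) c)
  have h2 := (memLp_const (|logZ H₀| + A * n)).add
    ((h.comp_snd (Measure.infinitePi fun _ : ℕ => gam (Fin N))).const_mul (|s| * ∑ p, |x p|))
  exact h2.mono ((measurable_dz hf s x H₀).comp measurable_prodMk_left).aestronglyMeasurable
    (ae_of_all _ fun w => by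
      rw [Real.norm_eq_abs, Real.norm_eq_abs]
      refine ((abs_dz_le hb s x H₀ (n, w)).trans_eq ?_).trans (le_abs_self _)
      simp only [Pi.add_apply]
      ring)

/-- The mean over the perturbation at given patterns. -/
def dzPat (f : ℝ → ℝ) (s : ℝ) (x : Fin L → ℝ) (H₀ : Conf P → ℝ) (I : Finset ℕ)
    (c : I → Fin N → ℝ) : ℝ :=
  ∫ J, logZ (fun σ => (H₀ σ + Sphere.Perturb.patH f I c σ) + field (fun τ i => s * x i.1 * Sphere.Perturb.feat i τ) J σ)
    ∂gam (PertIdx N L)

lemma abs_dzPat_sub_le (s : ℝ) (x : Fin L → ℝ) (H₀ : Conf P → ℝ) (I : Finset ℕ)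
    (c c' : I → Fin N → ℝ) {a : ℝ}
    (h : ∀ σ, |Sphere.Perturb.patH (pts := P) f I c' σ - Sphere.Perturb.patH f I c σ| ≤ a) :
    |dzPat f s x H₀ I c - dzPat f s x H₀ I c'| ≤ a := by
  rw [abs_sub_comm]
  refine abs_integral_sub_le (integrable_logZ_field _ _) (integrable_logZ_field _ _) fun J => ?_
  have h' := abs_logZ_sub_le' (fun σ => (H₀ σ + Sphere.Perturb.patH f I c σ) +
    field (fun τ i => s * x i.1 * Sphere.Perturb.feat i τ) J σ) (fun σ => Sphere.Perturb.patH f I c' σ - Sphere.Perturb.patH f I c σ) h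
  exact le_trans (le_of_eq (congrArg (fun H => |logZ H - _|) (funext fun σ => by ring))) h'

lemma measurable_dzPat (hf : Continuous f) (s : ℝ) (x : Fin L → ℝ) (H₀ : Conf P → ℝ)
    (I : Finset ℕ) : Measurable (dzPat f s x H₀ I) := by
  have h : Measurable fun z : (I → Fin N → ℝ) × (PertIdx N L → ℝ) =>
      logZ (fun σ => (H₀ σ + Sphere.Perturb.patH f I z.1 σ) + field (fun τ i => s * x i.1 * Sphere.Perturb.feat i τ) z.2 σ) :=
    (Finset.measurable_sum Finset.univ fun (σ : Conf P) _ =>
      ((((measurable_patH hf I σ).comp measurable_fst).const_add (H₀ σ)).add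
      ((Vale.Agent.P168.Limit.SelfAvg.measurable_field
        (fun (τ : Conf P) (i : PertIdx N L) => s * x i.1 * Sphere.Perturb.feat i τ) σ).comp
          measurable_snd)).exp).log
  exact h.stronglyMeasurable.integral_prod_right'.measurable

lemma dzPat_variance (hf : Continuous f) (hb : ∀ z, |f z| ≤ A) (s : ℝ) (x : Fin L → ℝ)
    (H₀ : Conf P → ℝ) (I : Finset ℕ) :
    variance (dzPat f s x H₀ I) (Measure.pi fun _ : I => gam (Fin N)) ≤ 2 * A ^ 2 * I.card := by
  classical
  have hm := measurable_dzPat hf s x H₀ I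
  have hsub : ∀ (c c' : I → Fin N → ℝ) (σ : Conf P),
      |Sphere.Perturb.patH (pts := P) f I c' σ - Sphere.Perturb.patH f I c σ| ≤ 2 * A * I.card := by
    intro c c' σ
    linarith [abs_patH_le hb I c σ, abs_patH_le hb I c' σ, abs_sub (Sphere.Perturb.patH f I c' σ) (Sphere.Perturb.patH f I c σ)]
  refine (efronStein _ hm (MemLp.of_bound hm.aestronglyMeasurable
    (|dzPat f s x H₀ I 0| + 2 * A * I.card) (ae_of_all _ fun c => ?_))
    (d := fun _ _ _ => 2 * A) (fun _ => integrable_const _) fun c k a => ?_).trans_eq ?_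
  · have := abs_dzPat_sub_le s x H₀ I c 0 (hsub c 0)
    rw [Real.norm_eq_abs]
    linarith [abs_sub_abs_le_abs_sub (dzPat f s x H₀ I c) (dzPat f s x H₀ I 0)]
  · refine abs_dzPat_sub_le s x H₀ _ _ _ fun σ => ?_
    simp only [Sphere.Perturb.patH, ← Finset.sum_sub_distrib]
    rw [Fintype.sum_eq_single k fun j hj => by simp [Function.update_of_ne hj]]
    refine (abs_sub _ _).trans ?_
    linarith [hb (dot (Function.update c k a k) (Sphere.unitVec σ)), hb (dot (c k) (Sphere.unitVec σ))]
  · simp only [integral_const, probReal_univ, one_smul, Finset.sum_const, Finset.card_univ,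
      Fintype.card_coe, nsmul_eq_mul]
    ring

lemma dz_pattern_variance (hf : Continuous f) (hb : ∀ z, |f z| ≤ A) (s : ℝ) (x : Fin L → ℝ)
    (H₀ : Conf P → ℝ) (n : ℕ) :
    variance (fun g : ℕ → Fin N → ℝ => ∫ J, dz f s x H₀ (n, g, J) ∂gam (PertIdx N L))
      (Measure.infinitePi fun _ : ℕ => gam (Fin N)) ≤ 2 * A ^ 2 * n := by
  have e : (fun g : ℕ → Fin N → ℝ => ∫ J, dz f s x H₀ (n, g, J) ∂gam (PertIdx N L)) =
      fun g => dzPat f s x H₀ (Finset.range n) ((Finset.range n).restrict g) := by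
    funext g
    simp only [dzPat, dz, totalH_eq, ← add_assoc]
    rfl
  have hn : ((Finset.range n).card : ℝ) = n := by rw [Finset.card_range]
  rw [e, ← hn]
  generalize Finset.range n = I
  have hres : MeasurePreserving I.restrict (Measure.infinitePi fun _ : ℕ => gam (Fin N))
      (Measure.pi fun _ : I => gam (Fin N)) :=
    ⟨I.measurable_restrict, Measure.infinitePi_map_restrict (μ := fun _ : ℕ => gam (Fin N))⟩
  rw [hres.variance_fun_comp (measurable_dzPat hf s x H₀ I).aemeasurable]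
  exact dzPat_variance hf hb s x H₀ I

/-- The variance bound, uniform in the base. -/
theorem dz_variance [NeZero N] (hf : Continuous f) (hb : ∀ z, |f z| ≤ A) (s : ℝ) {μ : ℝ}
    (hμ : 0 ≤ μ) {x : Fin L → ℝ} (hx : ∀ p, |x p| ≤ 3) (H₀ : Conf P → ℝ) :
    variance (dz f s x H₀) (disLaw N L μ) ≤ 6 * s ^ 2 + 3 * A ^ 2 * μ := by
  have hmem := memLp_dz hf hb s μ x H₀
  have hsec := memLp_dz_section hf hb s x H₀
  unfold disLaw at hmem ⊢
  have hg : Integrable (fun n : ℕ => 6 * s ^ 2 + 2 * A ^ 2 * (n : ℝ))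
      (poissonMeasure μ.toNNReal) :=
    (integrable_const _).add ((integrable_count _).const_mul _)
  refine le_trans (variance_prod_le (μ := poissonMeasure μ.toNNReal)
    (ν := (Measure.infinitePi fun _ : ℕ => gam (Fin N)).prod (gam (PertIdx N L)))
    (f := dz f s x H₀) hmem
    (g := fun n : ℕ => 6 * s ^ 2 + 2 * A ^ 2 * (n : ℝ))
    (W := 6 * s ^ 2 + 2 * A ^ 2 * μ) (V := A ^ 2 * μ) hg (fun n => ?_) ?_ ?_) (le_of_eq (by ring))
  · refine variance_prod_le (hsec n) (g := fun _ => 6 * s ^ 2) (integrable_const _) (fun g => ?_)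
      (le_of_eq (by simp)) (dz_pattern_variance hf hb s x H₀ n)
    simp only [dz, totalH_eq, ← add_assoc]
    exact field_part_variance s hx _
  · rw [integral_add (integrable_const _) ((integrable_count _).const_mul _),
      integral_const_mul (2 * A ^ 2), integral_count]
    simp [Real.coe_toNNReal μ hμ]
  · refine (variance_poisson_le (memLp_sections hmem).2 fun n => ?_).trans_eq
      (by rw [Real.coe_toNNReal μ hμ])
    refine abs_integral_sub_le ((hsec _).integrable one_le_two) ((hsec _).integrable one_le_two)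
      fun w => ?_
    have h := abs_logZ_sub_le' (fun σ => H₀ σ + Sphere.totalH (P := P) f s x (n, w) σ)
      (fun σ => f (dot (w.1 n) (Sphere.unitVec σ))) (c := A) fun σ => hb _
    refine le_trans (le_of_eq (congrArg (fun H => |logZ H - _|) (funext fun σ => ?_))) h
    simp only [Sphere.totalH, Finset.sum_range_succ]
    ring

end Vale.Agent.P157.Parisi.Full.Conc
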