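import Vale.Agent.P168.Limit.ToolkitES

/-!
The Efron–Stein inequality with one-sided differences.
-/

noncomputable section

open MeasureTheory ProbabilityTheory
open scoped BigOperators

namespace Vale.Agent.P157.Parisi.Full.Conc

open Vale.Agent.P168.Toolkit (variance_prod_eq variance_le_of_dist memLp_sections)

/-- The variance of a bounded function whose downward moves are bounded. -/
lemma variance_le_sq {α : Type*} [MeasurableSpace α] {μ : Measure α} [IsProbabilityMeasure μ]
    {f q : α → ℝ} {Q : ℝ} (hf : MemLp f 2 μ) (hqm : Measurable q) (hqb : ∀ x, |q x| ≤ Q)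
    (hb : ∀ x y, f x - f y ≤ q x) : variance f μ ≤ ∫ x, q x ^ 2 ∂μ := by
  have hq2 : Integrable (fun x => q x ^ 2) μ :=
    (MemLp.of_bound hqm.aestronglyMeasurable Q (ae_of_all _ hqb) : MemLp q 2 μ).integrable_sq
  have hq0 : ∀ x, 0 ≤ q x := fun x => by simpa using hb x x
  have e : ∀ x y : α, Real.sqrt (q x ^ 2 + q y ^ 2) ^ 2 = q x ^ 2 + q y ^ 2 :=
    fun x y => Real.sq_sqrt (by positivity)
  refine (variance_le_of_dist hf (d := fun x y => Real.sqrt (q x ^ 2 + q y ^ 2)) ?_ ?_).trans_eq ?_
  · simp only [e]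
    exact (hq2.comp_fst μ).add (hq2.comp_snd μ)
  · intro x y
    refine Real.le_sqrt_of_sq_le ?_
    rw [sq_abs]
    rcases le_total (f y) (f x) with h | h
    · nlinarith [pow_le_pow_left₀ (sub_nonneg.2 h) (hb x y) 2, sq_nonneg (q y)]
    · nlinarith [pow_le_pow_left₀ (sub_nonneg.2 h) (hb y x) 2, sq_nonneg (q x)]
  · simp only [e]
    have h2 : ∀ x, ∫ y, (q x ^ 2 + q y ^ 2) ∂μ = q x ^ 2 + ∫ y, q y ^ 2 ∂μ := fun x => by
      rw [integral_add (integrable_const _) hq2]; simp
    simp only [h2]
    rw [integral_add hq2 (integrable_const _)]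
    simp
    ring

private lemma cons_measurePreserving {n : ℕ} {X : Fin (n + 1) → Type*}
    [∀ i, MeasurableSpace (X i)] (μ : ∀ i, Measure (X i)) [∀ i, IsProbabilityMeasure (μ i)] :
    MeasurePreserving (fun p : (∀ j : Fin n, X j.succ) × X 0 => (Fin.cons p.2 p.1 : ∀ i, X i))
      ((Measure.pi fun j => μ j.succ).prod (μ 0)) (Measure.pi μ) := by
  have h := (measurePreserving_piFinSuccAbove μ 0).symm
  have hs : MeasurePreserving (Prod.swap : (∀ j : Fin n, X j.succ) × X 0 → _)
      ((Measure.pi fun j => μ j.succ).prod (μ 0))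
      ((μ 0).prod (Measure.pi fun j => μ j.succ)) := Measure.measurePreserving_swap
  have := h.comp hs
  refine cast (congrArg (fun g => MeasurePreserving g _ _) (funext fun p => ?_)) this
  simp only [MeasurableEquiv.piFinSuccAbove_symm_apply, Fin.insertNthEquiv,
    Equiv.coe_fn_mk, Fin.insertNth_zero]
  rfl

private lemma oneSided_fin (n : ℕ) : ∀ {X : Fin n → Type*} [∀ i, MeasurableSpace (X i)]
    (μ : ∀ i, Measure (X i)) [∀ i, IsProbabilityMeasure (μ i)] {f : (∀ i, X i) → ℝ} {B : ℝ}
    (_hm : Measurable f) (_hfb : ∀ x, |f x| ≤ B) {q : Fin n → (∀ i, X i) → ℝ} {Q : ℝ}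
    (_hqm : ∀ i, Measurable (q i)) (_hqb : ∀ i x, |q i x| ≤ Q)
    (_hb : ∀ x i a, f x - f (Function.update x i a) ≤ q i x),
    variance f (Measure.pi μ) ≤ ∑ i, ∫ x, q i x ^ 2 ∂Measure.pi μ := by
  induction n with
  | zero =>
    intro X _ μ _ f B _ _ q Q _ _ _
    have : f = fun _ => f finZeroElim :=
      funext fun x => congrArg f (funext fun i => Fin.elim0 i)
    rw [this, variance_eq_sub (memLp_const _)]
    simp
  | succ n ih =>
    intro X _ μ _ f B hfm hfb q Q hqm hqb hb
    have hmp := cons_measurePreserving μ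
    set ρ := Measure.pi fun j : Fin n => μ j.succ
    set F : (∀ j : Fin n, X j.succ) × X 0 → ℝ := fun p => f (Fin.cons p.2 p.1) with hF
    set G : Fin (n + 1) → (∀ j : Fin n, X j.succ) × X 0 → ℝ :=
      fun i p => q i (Fin.cons p.2 p.1) with hG
    have hFm : Measurable F := hfm.comp hmp.measurable
    have hGm : ∀ i, Measurable (G i) := fun i => (hqm i).comp hmp.measurable
    have hFp : MemLp F 2 (ρ.prod (μ 0)) :=
      MemLp.of_bound hFm.aestronglyMeasurable B (ae_of_all _ fun p => hfb _)
    have hG2 : ∀ i, Integrable (fun p => G i p ^ 2) (ρ.prod (μ 0)) := fun i =>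
      (MemLp.of_bound (hGm i).aestronglyMeasurable Q (ae_of_all _ fun p => hqb i _) :
        MemLp (G i) 2 _).integrable_sq
    have hmq : ∀ i, ∫ x, q i x ^ 2 ∂Measure.pi μ = ∫ y, ∫ a, G i (y, a) ^ 2 ∂μ 0 ∂ρ := fun i => by
      rw [← integral_prod _ (hG2 i), ← hmp.map_eq, integral_map hmp.measurable.aemeasurable
        ((hqm i).pow_const 2).aestronglyMeasurable]
    have hv : variance f (Measure.pi μ) = variance F (ρ.prod (μ 0)) :=
      (hmp.variance_fun_comp hfm.aemeasurable).symm
    have hsecF : ∀ y, Integrable (fun a => F (y, a)) (μ 0) := fun y =>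
      Integrable.of_bound (hFm.comp measurable_prodMk_left).aestronglyMeasurable B
        (ae_of_all _ fun a => hfb _)
    have hsecG : ∀ i y, MemLp (fun a => G i (y, a)) 2 (μ 0) := fun i y =>
      MemLp.of_bound ((hGm i).comp measurable_prodMk_left).aestronglyMeasurable Q
        (ae_of_all _ fun a => hqb i _)
    rw [hv, variance_prod_eq hFp, Fin.sum_univ_succ, hmq 0]
    refine add_le_add ?_ ?_
    · refine integral_mono_of_nonneg (ae_of_all _ fun y => variance_nonneg _ _)
        (hG2 0).integral_prod_left (ae_of_all _ fun y => ?_)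
      refine variance_le_sq (MemLp.of_bound (hFm.comp measurable_prodMk_left).aestronglyMeasurable B
          (ae_of_all _ fun a => hfb _))
        ((hGm 0).comp measurable_prodMk_left) (fun a => hqb 0 _) fun a b => ?_
      have := hb (Fin.cons a y) 0 b
      rwa [Fin.update_cons_zero] at this
    · refine (ih (fun j => μ j.succ) (f := fun y => ∫ a, F (y, a) ∂μ 0) (B := B)
        hFm.stronglyMeasurable.integral_prod_right'.measurable (fun y => ?_)
        (q := fun j y => ∫ a, G j.succ (y, a) ∂μ 0) (Q := Q)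
        (fun j => (hGm j.succ).stronglyMeasurable.integral_prod_right'.measurable)
        (fun j y => ?_) fun y j c => ?_).trans (Finset.sum_le_sum fun j _ => ?_)
      · simpa using norm_integral_le_of_norm_le_const (μ := μ 0) (f := fun a => F (y, a)) (C := B)
          (ae_of_all _ fun a => hfb _)
      · simpa using norm_integral_le_of_norm_le_const (μ := μ 0) (f := fun a => G j.succ (y, a))
          (C := Q) (ae_of_all _ fun a => hqb _ _)
      · rw [← integral_sub (hsecF _) (hsecF _)]
        refine integral_mono ((hsecF _).sub (hsecF _)) ((hsecG j.succ y).integrable one_le_two)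
          fun a => ?_
        have := hb (Fin.cons a y) j.succ c
        rwa [← Fin.cons_update] at this
      · rw [hmq j.succ]
        refine integral_mono_of_nonneg (ae_of_all _ fun y => sq_nonneg _)
          (hG2 j.succ).integral_prod_left (ae_of_all _ fun y => ?_)
        have h := variance_nonneg (fun a => G j.succ (y, a)) (μ 0)
        rw [variance_eq_sub (hsecG j.succ y)] at h
        simp only [Pi.pow_apply] at h ⊢
        linarith

/-- The Efron–Stein inequality with one-sided differences. -/
theorem oneSided {ι : Type*} [Fintype ι] [DecidableEq ι] {X : ι → Type*}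
    [∀ i, MeasurableSpace (X i)] (μ : ∀ i, Measure (X i)) [∀ i, IsProbabilityMeasure (μ i)]
    {f : (∀ i, X i) → ℝ} {B : ℝ} (hm : Measurable f) (hfb : ∀ x, |f x| ≤ B)
    {q : ι → (∀ i, X i) → ℝ} {Q : ℝ} (hqm : ∀ i, Measurable (q i)) (hqb : ∀ i x, |q i x| ≤ Q)
    (hb : ∀ x i a, f x - f (Function.update x i a) ≤ q i x) :
    variance f (Measure.pi μ) ≤ ∑ i, ∫ x, q i x ^ 2 ∂Measure.pi μ := by
  set e := (Fintype.equivFin ι).symm
  set T := MeasurableEquiv.piCongrLeft X e with hT
  have hmp : MeasurePreserving T (Measure.pi fun k => μ (e k)) (Measure.pi μ) :=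
    measurePreserving_piCongrLeft μ e
  have happ : ∀ z k, T z (e k) = z k := fun z k =>
    MeasurableEquiv.piCongrLeft_apply_apply (e := e) (β := X) z k
  have hv : variance f (Measure.pi μ) = variance (fun z => f (T z)) (Measure.pi fun k => μ (e k)) :=
    (hmp.variance_fun_comp hm.aemeasurable).symm
  have hq : ∀ i, ∫ x, q i x ^ 2 ∂Measure.pi μ =
      ∫ z, q i (T z) ^ 2 ∂Measure.pi fun k => μ (e k) := fun i => by
    rw [← hmp.map_eq, integral_map hmp.measurable.aemeasurable
      ((hqm i).pow_const 2).aestronglyMeasurable]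
  rw [hv, ← e.sum_comp fun i => ∫ x, q i x ^ 2 ∂Measure.pi μ]
  simp only [hq]
  refine oneSided_fin _ (fun k => μ (e k)) (f := fun z => f (T z)) (B := B) (hm.comp T.measurable)
    (fun z => hfb _) (q := fun k z => q (e k) (T z)) (Q := Q)
    (fun k => (hqm _).comp T.measurable) (fun k z => hqb _ _) fun z k a => ?_
  have hu : T (Function.update z k a) = Function.update (T z) (e k) a := by
    funext i
    obtain ⟨l, rfl⟩ := e.surjective i
    rw [happ]
    by_cases h : l = k
    · subst h; simp
    · rw [Function.update_of_ne h, Function.update_of_ne (e.injective.ne h), happ]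
  simp only [hu]
  exact hb (T z) (e k) a

end Vale.Agent.P157.Parisi.Full.Conc
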