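import Vale.Agent.P157.Full.Slots
import Vale.Agent.P157.Parisi.Sphere.Perturb.Basic

/-!
Bounds on the slots, and the truncated cascade on a good tree.
-/

noncomputable section

open MeasureTheory ProbabilityTheory
open scoped BigOperators

namespace Vale.Agent.P157.Parisi.Full.Conc

open Vale.Agent.P168 (CascTree cascLaw cascSum cascMean)
open Vale.Agent.P168.Cascade
open Vale.Agent.P157.Parisi.Sphere (Pts Conf)
open Vale.Agent.P157.Parisi.Up (inc clipA abs_clipA_le abs_log_cascMean_le)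

variable {r N L T : ℕ} {P : Pts N}

lemma fieldLen_slotDir (k : Fin (r + 1)) : Up.fieldLen (slotDir k) = 1 := by
  have e : ∀ p : Fin r, Real.sqrt (inc (slotDir k) p) = if k = p.succ then 1 else 0 := by
    intro p
    have h : inc (slotDir k) p = if k = p.succ then 1 else 0 := by
      simp only [inc, slotDir, Fin.ext_iff, Fin.le_def, Fin.val_succ, Fin.val_castSucc]
      split_ifs <;> first | omega | norm_num
    rw [h]
    split_ifs <;> simp
  have e0 : Real.sqrt (slotDir k 0) = if k = 0 then 1 else 0 := by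
    simp only [slotDir, Fin.le_zero_iff]
    split_ifs <;> simp
  rw [Up.fieldLen, Finset.sum_congr rfl fun p _ => e p, e0,
    ← Fin.sum_univ_succ fun q : Fin (r + 1) => if k = q then (1 : ℝ) else 0]
  simp

lemma abs_slotX_le {δ a : ℝ} (ha : 0 ≤ a) (ks : Fin T → Fin (r + 1)) (E : Fin T → Fin N → ℝ)
    (σ : Conf P) (η : Fin r → Fin T → Fin N → ℝ) :
    |slotX δ a ks E σ η| ≤ T * (Real.sqrt δ * (N * a)) := by
  refine (Finset.abs_sum_le_sum_abs _ _).trans ((Finset.sum_le_sum fun t _ => ?_).trans_eq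
    (by simp : ∑ _t : Fin T, Real.sqrt δ * (N * a) = _))
  simpa [fieldLen_slotDir] using Sphere.Up.abs_fieldX_le ha (slotDir (ks t)) (E t) σ fun p => η p t

/-- Changing one root variable. -/
lemma slotX_update_ge {δ a : ℝ} (ha : 0 ≤ a) (ks : Fin T → Fin (r + 1)) (E : Fin T → Fin N → ℝ)
    (t : Fin T) (i : Fin N) (b : ℝ) (σ : Conf P) (η : Fin r → Fin T → Fin N → ℝ) :
    slotX δ a ks E σ η - 2 * a * Real.sqrt δ * |Sphere.Up.sv σ i| ≤
      slotX δ a ks (Function.update E t (Function.update (E t) i b)) σ η := by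
  set E' := Function.update E t (Function.update (E t) i b) with hE'
  have hd : slotX δ a ks E σ η - slotX δ a ks E' σ η = Real.sqrt δ * (Sphere.Up.sv σ i *
      (Real.sqrt (slotDir (ks t) 0) * (clipA a (E t i) - clipA a b))) := by
    simp only [slotX, ← Finset.sum_sub_distrib]
    rw [Fintype.sum_eq_single t fun t' ht' => by simp [hE', Function.update_of_ne ht']]
    simp only [Sphere.Up.fieldX, hE', Function.update_self, ← mul_sub, ← Finset.sum_sub_distrib]
    rw [Fintype.sum_eq_single i fun j hj => by simp [Function.update_of_ne hj]]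
    simp only [Function.update_self, pathField, add_sub_add_right_eq_sub, ← mul_sub]
  have h1 : Real.sqrt (slotDir (ks t) 0) ≤ 1 := by
    unfold slotDir; split_ifs <;> simp
  have h2 : |Real.sqrt (slotDir (ks t) 0) * (clipA a (E t i) - clipA a b)| ≤ 1 * (2 * a) := by
    rw [abs_mul, abs_of_nonneg (Real.sqrt_nonneg _)]
    refine mul_le_mul h1 ((abs_sub _ _).trans ?_) (abs_nonneg _) zero_le_one
    linarith [abs_clipA_le ha (E t i), abs_clipA_le ha b]
  have h3 := le_abs_self (slotX δ a ks E σ η - slotX δ a ks E' σ η)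
  rw [hd, abs_mul, abs_mul, abs_of_nonneg (Real.sqrt_nonneg δ)] at h3
  have h4 : Real.sqrt δ * (|Sphere.Up.sv σ i| *
      |Real.sqrt (slotDir (ks t) 0) * (clipA a (E t i) - clipA a b)|) ≤
        Real.sqrt δ * (|Sphere.Up.sv σ i| * (1 * (2 * a))) :=
    mul_le_mul_of_nonneg_left (mul_le_mul_of_nonneg_left h2 (abs_nonneg _)) (Real.sqrt_nonneg δ)
  linarith

lemma measurable_slotX (δ a : ℝ) (ks : Fin T → Fin (r + 1)) (σ : Conf P) :
    Measurable fun w : (Fin T → Fin N → ℝ) × (Fin r → Fin T → Fin N → ℝ) =>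
      slotX δ a ks w.1 σ w.2 := by
  refine Finset.measurable_sum _ fun t _ => ?_
  have h := (Sphere.Up.measurable_fieldZ (N := N) δ a (slotDir (ks t)) σ).log
  simp only [Sphere.Up.fieldZ, Real.log_exp] at h
  exact h.comp (f := fun w : (Fin T → Fin N → ℝ) × (Fin r → Fin T → Fin N → ℝ) =>
    (w.1 t, fun p => w.2 p t)) (((measurable_pi_apply t).comp measurable_fst).prodMk
      (measurable_pi_lambda _ fun p =>
        (measurable_pi_apply t).comp ((measurable_pi_apply p).comp measurable_snd)))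

lemma bdd_exp_slotX {δ a : ℝ} (ha : 0 ≤ a) (ks : Fin T → Fin (r + 1)) (E : Fin T → Fin N → ℝ)
    (σ : Conf P) :
    Bdd (Real.exp (T * (Real.sqrt δ * (N * a)))) fun η => Real.exp (slotX δ a ks E σ η) := by
  refine ⟨Real.exp_pos _, ((measurable_slotX δ a ks σ).comp measurable_prodMk_left).exp,
    fun η => ?_⟩
  have h := abs_le.1 (abs_slotX_le (δ := δ) ha ks E σ η)
  rw [← Real.exp_neg]
  exact ⟨Real.exp_le_exp.2 h.1, Real.exp_le_exp.2 h.2⟩

/-- On a good tree nothing is truncated. -/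
lemma truncV_eq {δ a : ℝ} (ha : 0 ≤ a) (m : Fin r → ℝ) (ks : Fin T → Fin (r + 1)) {n : Fin r → ℕ}
    (hn : ∀ i, 0 < n i) (E : Fin T → Fin N → ℝ) {t : CascTree (Fin T → Fin N → ℝ) r n}
    (ht : GoodTree r n t) (σ : Conf P) :
    truncV δ a m ks n (E, t) σ = cascSum r m n (fun η => Real.exp (slotX δ a ks E σ η)) t /
      cascSum r m n (fun _ => 1) t / P.K := by
  have hY := bdd_exp_slotX (δ := δ) ha ks E σ
  have h := abs_log_cascMean_le hY m n ht
  rw [Real.log_exp, abs_of_nonneg (a := (T : ℝ) * (Real.sqrt δ * (N * a))) (by positivity),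
    cascMean] at h
  rw [truncV, if_pos]
  refine ⟨(cascSum_pos hY m hn ht).2, cascSum_one_pos m hn ht, ?_⟩
  rwa [abs_of_nonneg ha]

/-- The weights of the slots, summed over the configurations. -/
def slotY (P : Pts N) (f : ℝ → ℝ) (δ a : ℝ) (ks : Fin T → Fin (r + 1)) (s : ℝ) (x : Fin L → ℝ)
    (z : Dis N L × (Fin T → Fin N → ℝ)) (η : Fin r → Fin T → Fin N → ℝ) : ℝ :=
  ∑ σ, slotW δ a ks (Sphere.totalH (P := P) f s x z.1) z.2 σ η

lemma measurable_slotY {f : ℝ → ℝ} (hf : Continuous f) (δ a : ℝ) (ks : Fin T → Fin (r + 1))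
    (s : ℝ) (x : Fin L → ℝ) :
    Measurable (Function.uncurry (slotY P f δ a ks s x)) := by
  have hsl := fun σ => measurable_slotX (P := P) δ a ks σ
  have hH : ∀ σ, Measurable fun d : Dis N L => Sphere.totalH (P := P) f s x d σ := fun σ =>
    (Sphere.Perturb.measurable_totalH hf s σ).comp (f := fun d : Dis N L => (x, d))
      measurable_prodMk_left
  have hz : Measurable fun w : (Dis N L × (Fin T → Fin N → ℝ)) × (Fin r → Fin T → Fin N → ℝ) =>
      w.1.1 := measurable_fst.comp measurable_fst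
  have hE : Measurable fun w : (Dis N L × (Fin T → Fin N → ℝ)) × (Fin r → Fin T → Fin N → ℝ) =>
      (w.1.2, w.2) := (measurable_snd.comp measurable_fst).prodMk measurable_snd
  have hterm : ∀ σ : Conf P, Measurable
      fun w : (Dis N L × (Fin T → Fin N → ℝ)) × (Fin r → Fin T → Fin N → ℝ) =>
        Real.exp (Sphere.totalH f s x w.1.1 σ + slotX δ a ks w.1.2 σ w.2) / P.K := fun σ =>
    (((hH σ).comp hz).add ((hsl σ).comp hE)).exp.div_const _
  show Measurable fun w : (Dis N L × (Fin T → Fin N → ℝ)) × (Fin r → Fin T → Fin N → ℝ) =>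
    ∑ σ : Conf P, Real.exp (Sphere.totalH f s x w.1.1 σ + slotX δ a ks w.1.2 σ w.2) / P.K
  exact Finset.measurable_sum _ fun σ _ => hterm σ

lemma bdd_slotY {f : ℝ → ℝ} (hf : Continuous f) {δ a : ℝ} (ha : 0 ≤ a)
    (ks : Fin T → Fin (r + 1)) (s : ℝ) (x : Fin L → ℝ) (z : Dis N L × (Fin T → Fin N → ℝ)) {c : ℝ}
    (hc : ∀ σ, |Sphere.totalH (P := P) f s x z.1 σ| ≤ c) :
    Bdd (Real.exp (c + T * (Real.sqrt δ * (N * a)))) (slotY P f δ a ks s x z) := by
  refine ⟨Real.exp_pos _, (measurable_slotY hf δ a ks s x).of_uncurry_left, fun η => ?_⟩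
  have hK : (0 : ℝ) < P.K := Nat.cast_pos.2 P.pos
  have hcard : (Fintype.card (Conf P) : ℝ) = P.K := by
    show (Fintype.card (Fin P.K) : ℝ) = _
    rw [Fintype.card_fin]
  have hσ := fun σ => abs_le.1 ((abs_add_le (Sphere.totalH (P := P) f s x z.1 σ)
    (slotX δ a ks z.2 σ η)).trans (add_le_add (hc σ) (abs_slotX_le ha ks z.2 σ η)))
  simp only [slotY, slotW, ← Finset.sum_div]
  rw [← Real.exp_neg, le_div_iff₀ hK, div_le_iff₀ hK, ← hcard]
  have hl := Finset.card_nsmul_le_sum Finset.univ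
    (fun σ => Real.exp (Sphere.totalH (P := P) f s x z.1 σ + slotX δ a ks z.2 σ η)) _
    fun σ _ => Real.exp_le_exp.2 (hσ σ).1
  have hu := Finset.sum_le_card_nsmul Finset.univ
    (fun σ => Real.exp (Sphere.totalH (P := P) f s x z.1 σ + slotX δ a ks z.2 σ η)) _
    fun σ _ => Real.exp_le_exp.2 (hσ σ).2
  rw [nsmul_eq_mul, Finset.card_univ, mul_comm] at hl hu
  exact ⟨hl, hu⟩

/-- On a good tree the log-partition function is the logarithm of a cascade average. -/
lemma basePsi_eq {f : ℝ → ℝ} {δ a : ℝ} (ha : 0 ≤ a) (m : Fin r → ℝ) (ks : Fin T → Fin (r + 1))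
    {n : Fin r → ℕ} (hn : ∀ i, 0 < n i) (s : ℝ) (x : Fin L → ℝ) (d : Dis N L)
    (E : Fin T → Fin N → ℝ) {t : CascTree (Fin T → Fin N → ℝ) r n} (ht : GoodTree r n t) :
    basePsi (truncBase P δ a m ks n) f s x d (E, t) =
      Real.log (cascMean m n (slotY P f δ a ks s x (d, E)) t) := by
  simp only [basePsi]
  congr 1
  show ∑ σ, truncV δ a m ks n (E, t) σ * Real.exp (Sphere.totalH f s x d σ) = _
  simp only [truncV_eq ha m ks hn E ht, cascMean, slotY, slotW, cascSum_eq_sum_leaves, mul_one,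
    Real.exp_add, Finset.mul_sum, Finset.sum_div, Finset.sum_mul]
  rw [Finset.sum_comm]
  refine Finset.sum_congr rfl fun l _ => Finset.sum_congr rfl fun σ _ => ?_
  ring

/-- Changing one root variable lowers the weight of a configuration by at most a factor. -/
lemma log_truncV_update_ge {δ a : ℝ} (ha : 0 ≤ a) (m : Fin r → ℝ) (ks : Fin T → Fin (r + 1))
    {n : Fin r → ℕ} (hn : ∀ i, 0 < n i) (E : Fin T → Fin N → ℝ) (k : Fin T) (i : Fin N) (b : ℝ)
    {t : CascTree (Fin T → Fin N → ℝ) r n} (ht : GoodTree r n t) (σ : Conf P) :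
    Real.log (truncV δ a m ks n (E, t) σ) - 2 * a * Real.sqrt δ * |Sphere.Up.sv σ i| ≤
      Real.log (truncV δ a m ks n
        (Function.update E k (Function.update (E k) i b), t) σ) := by
  set g := 2 * a * Real.sqrt δ * |Sphere.Up.sv σ i|
  set E' := Function.update E k (Function.update (E k) i b)
  have hK : (0 : ℝ) < P.K := Nat.cast_pos.2 P.pos
  have hS := (cascSum_pos (bdd_exp_slotX (δ := δ) ha ks E σ) m hn ht).2
  have h1 := cascSum_one_pos m hn ht
  have hle : Real.exp (-g) * cascSum r m n (fun η => Real.exp (slotX δ a ks E σ η)) t ≤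
      cascSum r m n (fun η => Real.exp (slotX δ a ks E' σ η)) t := by
    rw [← cascSum_smul]
    refine cascSum_mono (fun η => ?_) ht
    rw [← Real.exp_add, Real.exp_le_exp]
    linarith [slotX_update_ge (δ := δ) ha ks E k i b σ η]
  have hlog := Real.log_le_log (mul_pos (Real.exp_pos _) hS) hle
  rw [Real.log_mul (Real.exp_pos _).ne' hS.ne', Real.log_exp] at hlog
  rw [truncV_eq ha m ks hn E ht, truncV_eq ha m ks hn E' ht,
    Real.log_div (div_pos hS h1).ne' hK.ne', Real.log_div hS.ne' h1.ne',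
    Real.log_div (div_pos ((mul_pos (Real.exp_pos _) hS).trans_le hle) h1).ne' hK.ne',
    Real.log_div ((mul_pos (Real.exp_pos _) hS).trans_le hle).ne' h1.ne']
  linarith

end Vale.Agent.P157.Parisi.Full.Conc
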