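import Vale.Agent.P157.Parisi.Upper.Weights

/-!
The logarithm of a cascade average stays within a constant of the logarithm of its nested mean,
the constant depending only on the exponents.
-/

noncomputable section

open MeasureTheory ProbabilityTheory Filter Topology Set
open scoped BigOperators

namespace Vale.Agent.P157.Parisi.Full.Conc

open Vale.Agent.P168 (CascTree cascLaw cascSum cascMean cascFilter genNested)
open Vale.Agent.P168.Cascade
open Vale.Agent.P157.Parisi.Up (abs_log_cascMean_le measurable_cascSum_param)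

variable {β : Type} [MeasurableSpace β] (ν : Measure β) {r : ℕ}

/-- The integrand of the bound, as a function of the value of the transform. -/
def devFun (u x : ℝ) : ℝ :=
  u⁻¹ * min ((1 - Real.exp (-u)) + (1 - x)) (Real.exp (-u) + x)

/-- The bound on the mean absolute logarithm of a cascade sum. -/
def dev (m : Fin r → ℝ) (n : Fin r → ℕ) (Y : (Fin r → β) → ℝ) : ℝ :=
  ∫ u in Ioi 0, devFun u (phi ν m n Y u)

/-- Its limit at nested mean one. -/
def devLim (m : Fin r → ℝ) : ℝ :=
  ∫ u in Ioi 0, devFun u (Real.exp (-(kappa m * u ^ top m)))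

variable [IsProbabilityMeasure ν]

lemma devFun_nonneg {u x : ℝ} (hu : 0 < u) (h0 : 0 ≤ x) (h1 : x ≤ 1) : 0 ≤ devFun u x := by
  have := Real.exp_le_one_iff.2 (neg_nonpos.2 hu.le)
  exact mul_nonneg (inv_nonneg.2 hu.le) (le_min (by linarith) (by positivity))

lemma devLim_nonneg {m : Fin r → ℝ} (hm : Exps m) : 0 ≤ devLim m :=
  setIntegral_nonneg measurableSet_Ioi fun u (hu : 0 < u) => devFun_nonneg hu (Real.exp_pos _).le
    (Real.exp_le_one_iff.2 (neg_nonpos.2 (mul_nonneg (kappa_pos hm).le (Real.rpow_nonneg hu.le _))))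

lemma top_le_one : ∀ {r : ℕ} {m : Fin r → ℝ}, Exps m → top m ≤ 1
  | 0, _, _ => le_rfl
  | _ + 1, _, hm => (hm.lt_one 0).le

lemma exists_dev_bound {m : Fin r → ℝ} (hm : Exps m) {C : ℝ} (hC : 0 < C) :
    ∃ a D, 0 ≤ a ∧ 0 ≤ D ∧ ∀ n : Fin r → ℕ, (∀ i, 0 < n i) → ∀ Y : (Fin r → β) → ℝ, Bdd C Y →
      ∀ u, 0 < u → |devFun u (phi ν m n Y u)| ≤ bdf (top m) a D u := by
  obtain ⟨a, D, ha, hD, hbd⟩ := exists_bounds ν hm hC
  refine ⟨1 + a, 1 + D, by positivity, by positivity, fun n hn Y hY u hu => ?_⟩
  obtain ⟨hU, hL⟩ := hbd n hn Y hY.meas hY.mem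
  have hY0 : ∀ ω, 0 ≤ Y ω := fun ω => (hY.gt_zero ω).le
  rw [abs_of_nonneg (devFun_nonneg hu (phi_nonneg ν _ _ _ _) (phi_le_one ν m n hY0 hu.le)),
    devFun, ← div_eq_inv_mul]
  refine le_bdf hu ((min_le_left _ _).trans ?_) ((min_le_right _ _).trans ?_)
  · rw [add_mul, one_mul]
    refine add_le_add ?_ (hU u hu.le)
    rcases le_total u 1 with h | h
    · calc 1 - Real.exp (-u) ≤ u := by linarith [Real.one_sub_le_exp_neg u]
        _ = u ^ (1 : ℝ) := (Real.rpow_one u).symm
        _ ≤ u ^ top m := Real.rpow_le_rpow_of_exponent_ge hu h (top_le_one hm)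
    · linarith [Real.exp_pos (-u), Real.one_le_rpow h hm.top_pos.le]
  · rw [add_div]
    refine add_le_add ?_ (hL u hu)
    rw [Real.exp_neg, one_div]
    exact inv_anti₀ hu (by linarith [Real.add_one_le_exp u])

lemma measurable_dev {D : Type} [MeasurableSpace D] (m : Fin r → ℝ) (n : Fin r → ℕ)
    {Y : D → (Fin r → β) → ℝ} (hY : Measurable (Function.uncurry Y)) :
    Measurable fun d => dev ν m n (Y d) := by
  have h : Measurable fun z : D × ℝ => devFun z.2 (phi ν m n (Y z.1) z.2) := by
    have hphi : Measurable fun z : D × ℝ => phi ν m n (Y z.1) z.2 :=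
      measurable_phi ν m n (Y := fun (z : D × ℝ) => Y z.1)
        (hY.comp ((measurable_fst.comp measurable_fst).prodMk measurable_snd)) measurable_snd
    have he : Measurable fun z : D × ℝ => Real.exp (-z.2) := measurable_snd.neg.exp
    exact measurable_snd.inv.mul
      (((measurable_const.sub he).add (measurable_const.sub hphi)).min (he.add hphi))
  exact h.stronglyMeasurable.integral_prod_right'.measurable

/-- The mean absolute logarithm of a cascade sum. -/
lemma abs_log_le_dev {m : Fin r → ℝ} (hm : Exps m) {n : Fin r → ℕ} (hn : ∀ i, 0 < n i) {C : ℝ}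
    {Y : (Fin r → β) → ℝ} (hY : Bdd C Y) :
    Integrable (fun t => |Real.log (cascSum r m n Y t)|) (cascLaw ν r n) ∧
      ∫ t, |Real.log (cascSum r m n Y t)| ∂cascLaw ν r n ≤ dev ν m n Y := by
  obtain ⟨a, D, ha, hD, hbd⟩ := exists_dev_bound ν hm hY.pos
  have hY0 : ∀ ω, 0 ≤ Y ω := fun ω => (hY.gt_zero ω).le
  set S := fun t => cascSum r m n Y t
  have hSm : Measurable S := measurable_cascSum m n hY.meas
  set F : ℝ → CascTree β r n → ℝ := fun u t =>
    u⁻¹ * (Real.exp (-(1 * u)) - Real.exp (-(u * S t))) with hF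
  have hFm : Measurable (Function.uncurry F) :=
    measurable_fst.inv.mul ((measurable_fst.const_mul _).neg.exp.sub
      (measurable_fst.mul (hSm.comp measurable_snd)).neg.exp)
  have hi : ∀ u, 0 ≤ u → Integrable (fun t => Real.exp (-(u * S t))) (cascLaw ν r n) :=
    fun u hu => integrable_exp_cascSum ν m n hY.meas hY0 hu
  have hsec : ∀ u, 0 < u → Integrable (F u) (cascLaw ν r n) := fun u hu =>
    ((integrable_const _).sub (hi u hu.le)).const_mul u⁻¹
  have hpt : ∀ u, 0 < u → ∫ t, |F u t| ∂cascLaw ν r n ≤ devFun u (phi ν m n Y u) := by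
    intro u hu
    simp only [hF, abs_mul, abs_inv, abs_of_pos hu, one_mul, devFun]
    rw [integral_const_mul]
    have hc : Integrable (fun _ : CascTree β r n => Real.exp (-u)) (cascLaw ν r n) :=
      integrable_const _
    refine mul_le_mul_of_nonneg_left (le_min ?_ ?_) (inv_nonneg.2 hu.le)
    · calc ∫ t, |Real.exp (-u) - Real.exp (-(u * S t))| ∂cascLaw ν r n
          ≤ ∫ t, ((1 - Real.exp (-u)) + (1 - Real.exp (-(u * S t)))) ∂cascLaw ν r n :=
            integral_mono_ae (hc.sub (hi u hu.le)).abs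
              ((integrable_const _).add ((integrable_const _).sub (hi u hu.le)))
              ((ae_good ν r n).mono fun t ht => by
                have h1 := exp_le_one (m := m) hY0 hu.le ht
                have h2 := Real.exp_le_one_iff.2 (neg_nonpos.2 hu.le)
                refine abs_le.2 ⟨?_, ?_⟩ <;> simp only [Pi.sub_apply, Pi.add_apply] <;> linarith)
        _ = _ := by
          have hB : Integrable (fun t => 1 - Real.exp (-(u * S t))) (cascLaw ν r n) :=
            (integrable_const _).sub (hi u hu.le)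
          rw [integral_add (integrable_const _) hB,
            integral_sub (integrable_const _) (hi u hu.le)]
          simp [phi, S]
    · calc ∫ t, |Real.exp (-u) - Real.exp (-(u * S t))| ∂cascLaw ν r n
          ≤ ∫ t, (Real.exp (-u) + Real.exp (-(u * S t))) ∂cascLaw ν r n :=
            integral_mono (hc.sub (hi u hu.le)).abs (hc.add (hi u hu.le)) fun t => by
              refine abs_le.2 ⟨?_, ?_⟩ <;> simp only [Pi.sub_apply, Pi.add_apply] <;>
                linarith [Real.exp_pos (-u), Real.exp_pos (-(u * S t))]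
        _ = _ := by rw [integral_add hc (hi u hu.le)]; simp [phi, S]
  have hbi := integrableOn_bdf (a := a) (D := D) hm.top_pos ha hD
  have hdev : IntegrableOn (fun u => devFun u (phi ν m n Y u)) (Ioi 0) := by
    refine hbi.mono' ?_ ?_
    · have := measurable_phi ν m n (δ := ℝ) (Y := fun _ => Y) (hY.meas.comp measurable_snd)
        measurable_id
      exact (measurable_id.inv.mul
        (((measurable_const.sub measurable_id.neg.exp).add (measurable_const.sub this)).min
          (measurable_id.neg.exp.add this))).aestronglyMeasurable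
    · filter_upwards [ae_restrict_mem measurableSet_Ioi] with u hu
      exact hbd n hn Y hY u hu
  have hint : Integrable (Function.uncurry F)
      ((volume.restrict (Ioi (0 : ℝ))).prod (cascLaw ν r n)) := by
    rw [integrable_prod_iff hFm.aestronglyMeasurable]
    refine ⟨?_, hdev.mono' ?_ ?_⟩
    · filter_upwards [ae_restrict_mem measurableSet_Ioi] with u hu using hsec u hu
    · exact (hFm.norm.stronglyMeasurable.integral_prod_right').aestronglyMeasurable
    · filter_upwards [ae_restrict_mem measurableSet_Ioi] with u hu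
      rw [Real.norm_eq_abs, abs_of_nonneg (integral_nonneg fun _ => norm_nonneg _)]
      exact hpt u hu
  have hint' : Integrable (Function.uncurry fun u t => |F u t|)
      ((volume.restrict (Ioi (0 : ℝ))).prod (cascLaw ν r n)) := hint.abs
  have hle : ∀ᵐ t ∂cascLaw ν r n, |Real.log (S t)| ≤ ∫ u in Ioi 0, |F u t| := by
    filter_upwards [ae_good ν r n] with t ht
    have hS : 0 < S t := (cascSum_pos hY m hn ht).2
    have e : Real.log (S t) = ∫ u in Ioi 0, F u t := by
      simp only [hF, mul_comm _ (S t)]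
      rw [(frullani_exp one_pos hS).2, div_one]
    rw [e]
    exact abs_integral_le_integral_abs
  have hI : Integrable (fun t => |Real.log (S t)|) (cascLaw ν r n) :=
    hint'.integral_prod_right.mono' hSm.log.abs.aestronglyMeasurable (hle.mono fun t ht => by
      rw [Real.norm_eq_abs, abs_abs]; exact ht)
  refine ⟨hI, ?_⟩
  refine (integral_mono_ae hI hint'.integral_prod_right hle).trans ?_
  show ∫ t, (∫ u in Ioi 0, |F u t|) ∂cascLaw ν r n ≤ _
  rw [← integral_integral_swap (f := fun u t => |F u t|) hint']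
  exact setIntegral_mono_on hint'.integral_prod_left hdev measurableSet_Ioi fun u hu => hpt u hu

/-- The bound tends to its limit at nested mean one. -/
lemma clim_dev {m : Fin r → ℝ} (hm : Exps m) {C : ℝ} {Y : (Fin r → β) → ℝ} (hY : Bdd C Y)
    (hG : genNested ν m Y = 1) : CLim r (fun n => dev ν m n Y) (devLim m) := by
  obtain ⟨a, D, ha, hD, hbd⟩ := exists_dev_bound ν hm hY.pos
  refine (clim_integral (μ := volume.restrict (Ioi (0 : ℝ)))
    (F := fun n u => devFun u (phi ν m n Y u))
    (L := fun u => devFun u (Real.exp (-(kappa m * u ^ top m))))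
    (integrableOn_bdf (a := a) (D := D) hm.top_pos ha hD) (fun n hn => ⟨?_, ?_⟩) ?_).2.2
  · have := measurable_phi ν m n (δ := ℝ) (Y := fun _ => Y) (hY.meas.comp measurable_snd)
      measurable_id
    exact (measurable_id.inv.mul
      (((measurable_const.sub measurable_id.neg.exp).add (measurable_const.sub this)).min
        (measurable_id.neg.exp.add this))).aestronglyMeasurable
  · filter_upwards [ae_restrict_mem measurableSet_Ioi] with u hu
    exact hbd n hn Y hY u hu
  · filter_upwards [ae_restrict_mem measurableSet_Ioi] with u hu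
    have h := phi_tendsto ν hY.pos hm hY.meas hY.mem (le_of_lt hu)
    rw [hG, one_mul] at h
    exact h.map (φ := devFun u) (by unfold devFun; fun_prop)

/-- Weights divided by their nested mean. -/
def normY (m : Fin r → ℝ) (Y : (Fin r → β) → ℝ) (η : Fin r → β) : ℝ :=
  (genNested ν m Y)⁻¹ * Y η

lemma bdd_normY {m : Fin r → ℝ} (hm : Exps m) {C : ℝ} {Y : (Fin r → β) → ℝ} (hY : Bdd C Y) :
    Bdd (C * C) (normY ν m Y) := by
  have hG := genNested_mem ν hY.pos hm hY.meas hY.mem
  have hG0 : 0 < genNested ν m Y := (inv_pos.2 hY.pos).trans_le hG.1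
  refine ⟨mul_pos hY.pos hY.pos, hY.meas.const_mul _, fun η => ⟨?_, ?_⟩⟩
  · rw [mul_inv]
    exact mul_le_mul (inv_anti₀ hG0 hG.2) (hY.mem η).1 (inv_nonneg.2 hY.pos.le)
      (inv_nonneg.2 hG0.le)
  · refine mul_le_mul ?_ (hY.mem η).2 (hY.gt_zero η).le hY.pos.le
    simpa using inv_anti₀ (inv_pos.2 hY.pos) hG.1

lemma genNested_normY {m : Fin r → ℝ} (hm : Exps m) {C : ℝ} {Y : (Fin r → β) → ℝ} (hY : Bdd C Y) :
    genNested ν m (normY ν m Y) = 1 := by
  have hG := genNested_mem ν hY.pos hm hY.meas hY.mem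
  have hG0 : 0 < genNested ν m Y := (inv_pos.2 hY.pos).trans_le hG.1
  show genNested ν m (fun η => (genNested ν m Y)⁻¹ * Y η) = 1
  rw [Vale.Agent.P168.Upper.genNested_const_mul ν (inv_nonneg.2 hG0.le) m hm.pos Y
    fun η => (hY.gt_zero η).le, inv_mul_cancel₀ hG0.ne']

/-- A cascade average against its nested mean. -/
lemma treeDev {m : Fin r → ℝ} (hm : Exps m) {n : Fin r → ℕ} (hn : ∀ i, 0 < n i) {C : ℝ}
    {Y : (Fin r → β) → ℝ} (hY : Bdd C Y) :
    ∫ t, |Real.log (cascMean m n Y t) - Real.log (genNested ν m Y)| ∂cascLaw ν r n ≤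
      dev ν m n (normY ν m Y) + dev ν m n fun _ => 1 := by
  have hG := genNested_mem ν hY.pos hm hY.meas hY.mem
  have hG0 : 0 < genNested ν m Y := (inv_pos.2 hY.pos).trans_le hG.1
  have h1 := abs_log_le_dev ν hm hn (bdd_normY ν hm hY)
  have h2 := abs_log_le_dev ν hm hn (C := 1) (Y := fun _ => (1 : ℝ))
    ⟨one_pos, measurable_const, fun _ => by simp⟩
  refine le_trans ?_ (add_le_add h1.2 h2.2)
  rw [← integral_add h1.1 h2.1]
  refine integral_mono_of_nonneg (ae_of_all _ fun t => abs_nonneg _) (h1.1.add h2.1)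
    ((ae_good ν r n).mono fun t ht => ?_)
  have hS : 0 < cascSum r m n Y t := (cascSum_pos hY m hn ht).2
  have hS1 := cascSum_one_pos m hn ht
  have e : Real.log (cascMean m n Y t) - Real.log (genNested ν m Y) =
      Real.log (cascSum r m n (normY ν m Y) t) - Real.log (cascSum r m n (fun _ => 1) t) := by
    show _ = Real.log (cascSum r m n (fun η => (genNested ν m Y)⁻¹ * Y η) t) - _
    rw [cascSum_smul, cascMean, Real.log_div hS.ne' hS1.ne',
      Real.log_mul (inv_ne_zero hG0.ne') hS.ne', Real.log_inv]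
    ring
  simp only
  rw [e]
  exact abs_sub _ _

/-- Cascade averages with a random parameter stay within a constant of their nested means. -/
theorem eventually_meanDev {D : Type} [MeasurableSpace D] (μ : Measure D) [IsProbabilityMeasure μ]
    {m : Fin r → ℝ} (hm : Exps m) {Y : D → (Fin r → β) → ℝ}
    (hY : Measurable (Function.uncurry Y)) {Λ : D → ℝ} (hΛ : Integrable Λ μ)
    (hb : ∀ d, ∃ C, Bdd C (Y d) ∧ |Real.log C| ≤ Λ d) :
    ∀ᶠ n in cascFilter r,
      ∫ d, ∫ t, |Real.log (cascMean m n (Y d) t) - Real.log (genNested ν m (Y d))|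
        ∂cascLaw ν r n ∂μ ≤ 2 * devLim m + 1 := by
  set h : (Fin r → ℕ) → D → ℝ := fun n d =>
    min (dev ν m n (normY ν m (Y d)) + dev ν m n fun _ => 1) (2 * Λ d) with hh
  have hΛ0 : ∀ d, 0 ≤ Λ d := fun d => by
    obtain ⟨C, _, hC⟩ := hb d
    exact (abs_nonneg _).trans hC
  have hdev0 : ∀ (n : Fin r → ℕ) {C : ℝ} {Z : (Fin r → β) → ℝ}, Bdd C Z → 0 ≤ dev ν m n Z :=
    fun n C Z hZ => setIntegral_nonneg measurableSet_Ioi fun u hu => devFun_nonneg hu
      (phi_nonneg ν _ _ _ _) (phi_le_one ν m n (fun ω => (hZ.gt_zero ω).le) (le_of_lt hu))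
  have hone : Bdd 1 (fun _ : Fin r → β => (1 : ℝ)) := ⟨one_pos, measurable_const, fun _ => by simp⟩
  have hnorm : Measurable (Function.uncurry fun d => normY ν m (Y d)) :=
    ((Vale.Agent.P168.Upper.measurable_genNested ν m Y hY).comp measurable_fst).inv.mul hY
  have hhm : ∀ n, AEStronglyMeasurable (h n) μ := fun n =>
    (((measurable_dev ν m n hnorm).add measurable_const).aemeasurable.min
      (hΛ.aestronglyMeasurable.aemeasurable.const_mul 2)).aestronglyMeasurable
  have hhb : ∀ n d, |h n d| ≤ 2 * Λ d := fun n d => by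
    obtain ⟨C, hC, _⟩ := hb d
    rw [hh, abs_of_nonneg (le_min (add_nonneg (hdev0 n (bdd_normY ν hm hC)) (hdev0 n hone))
      (by linarith [hΛ0 d]))]
    exact min_le_right _ _
  have hlim := (clim_integral (μ := μ) (F := h)
    (L := fun d => min (devLim m + devLim m) (2 * Λ d)) (bd := fun d => 2 * Λ d) (hΛ.const_mul 2)
    (fun n _ => ⟨hhm n, ae_of_all _ (hhb n)⟩) (ae_of_all _ fun d => ?_)).2.2.tendsto
  · have hLi : ∫ d, min (devLim m + devLim m) (2 * Λ d) ∂μ ≤ 2 * devLim m := by
      refine (integral_mono_of_nonneg (ae_of_all _ fun d => le_min (add_nonneg (devLim_nonneg hm)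
        (devLim_nonneg hm)) (mul_nonneg zero_le_two (hΛ0 d))) (integrable_const (devLim m + devLim m))
        (ae_of_all _ fun d => min_le_left _ _)).trans_eq ?_
      simp
      ring
    filter_upwards [hlim.eventually_le_const
      (show _ < 2 * devLim m + 1 by linarith), eventually_pos r] with n hn hpos
    refine le_trans ?_ hn
    refine integral_mono_of_nonneg (ae_of_all _ fun d => integral_nonneg fun t => abs_nonneg _)
      ((hΛ.const_mul 2).mono' (hhm n) (ae_of_all _ (hhb n))) (ae_of_all _ fun d => ?_)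
    obtain ⟨C, hC, hCΛ⟩ := hb d
    refine le_min (treeDev ν hm hpos hC) ?_
    refine (integral_mono_of_nonneg (ae_of_all _ fun t => abs_nonneg _) (integrable_const (2 * Λ d))
      ((ae_good ν r n).mono fun t ht => ?_)).trans_eq (by simp)
    have hG := genNested_mem ν hC.pos hm hC.meas hC.mem
    linarith [abs_sub (Real.log (cascMean m n (Y d) t)) (Real.log (genNested ν m (Y d))),
      abs_log_cascMean_le hC m n ht, abs_log_le hC.pos hG.1 hG.2]
  · obtain ⟨C, hC, _⟩ := hb d
    exact ((clim_dev ν hm (bdd_normY ν hm hC) (genNested_normY ν hm hC)).map₂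
      (φ := fun x y : ℝ => x + y) continuous_add (clim_dev ν hm hone
        (Vale.Agent.P168.Upper.genNested_one ν m hm.pos))).map
      (φ := fun x : ℝ => min x (2 * Λ d)) (by fun_prop)

end Vale.Agent.P157.Parisi.Full.Conc
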