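import Vale.Agent.P157.Full.Statements
import Vale.Agent.P157.Full.Conc.OneSided
import Vale.Agent.P157.Full.Conc.TreeDev
import Vale.Agent.P157.Full.Conc.Dis
import Vale.Agent.P157.Full.Conc.Slots

/-!
The free energy of the truncated cascades with slots concentrates.
-/

noncomputable section

open MeasureTheory ProbabilityTheory Filter
open scoped BigOperators

namespace Vale.Agent.P157.Parisi.Full.Conc

open Vale.Agent.P168 (CascTree cascLaw cascSum cascMean cascFilter genNested)
open Vale.Agent.P168.Cascade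
open Vale.Agent.P157.Parisi.Sphere (Pts Conf)
open Vale.Agent.P157.Parisi.Perturb (absJ memLp_absJ)
open Vale.Agent.P168.Limit (logZ gav gw)

lemma integral_abs_sub_mean_le {α : Type*} [MeasurableSpace α] {μ : Measure α}
    [IsProbabilityMeasure μ] {g : α → ℝ} (hg : MemLp g 2 μ) {V : ℝ} (hV : variance g μ ≤ V) :
    ∫ x, |g x - ∫ y, g y ∂μ| ∂μ ≤ Real.sqrt V := by
  set h : α → ℝ := fun x => |g x - ∫ y, g y ∂μ|
  have hh : MemLp h 2 μ := (hg.sub (memLp_const _)).abs
  refine Real.le_sqrt_of_sq_le (le_trans ?_ hV)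
  have h0 := variance_nonneg h μ
  rw [variance_eq_sub hh] at h0
  rw [variance_eq_integral hg.aestronglyMeasurable.aemeasurable]
  simp only [Pi.pow_apply, h, sq_abs] at h0
  linarith

lemma logZ_mono {X : Type*} [Fintype X] [Nonempty X] {H H' : X → ℝ} (h : ∀ x, H x ≤ H' x) :
    logZ H ≤ logZ H' :=
  Real.log_le_log (Finset.sum_pos (fun x _ => Real.exp_pos _) Finset.univ_nonempty)
    (Finset.sum_le_sum fun x _ => Real.exp_le_exp.2 (h x))

variable {r N L T : ℕ} {P : Pts N}

lemma basePsi_eq_dz (B : Base P) (f : ℝ → ℝ) (s : ℝ) (x : Fin L → ℝ) (d : Dis N L) (ω : B.Ω) :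
    basePsi B f s x d ω = dz f s x (fun σ => Real.log (B.v ω σ)) d := by
  simp only [basePsi, dz, logZ, Real.exp_add, Real.exp_log (B.pos ω _)]

lemma measurable_basePsi (B : Base P) {f : ℝ → ℝ} (hf : Continuous f) (s : ℝ) (x : Fin L → ℝ) :
    Measurable fun z : Dis N L × B.Ω => basePsi B f s x z.1 z.2 := by
  have hH : ∀ σ, Measurable fun d : Dis N L => Sphere.totalH (P := P) f s x d σ := fun σ =>
    (Sphere.Perturb.measurable_totalH hf s σ).comp (f := fun d : Dis N L => (x, d))
      measurable_prodMk_left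
  exact (Finset.measurable_sum _ fun σ _ =>
    ((B.meas σ).comp measurable_snd).mul ((hH σ).comp measurable_fst).exp).log

lemma abs_basePsi_le (B : Base P) {f : ℝ → ℝ} {A : ℝ} (hb : ∀ z, |f z| ≤ A) (s : ℝ)
    (x : Fin L → ℝ) (d : Dis N L) (ω : B.Ω) :
    |basePsi B f s x d ω| ≤ |logZ fun _ : Conf P => (0 : ℝ)| + B.bd +
      (A * d.1 + (|s| * ∑ p, |x p|) * absJ d.2.2) := by
  rw [basePsi_eq_dz]
  have h := Vale.Agent.P168.Limit.SelfAvg.abs_logZ_sub_le' (fun _ : Conf P => (0 : ℝ))
    (fun σ => Real.log (B.v ω σ)) (B.le_bd ω)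
  simp only [zero_add] at h
  refine (abs_dz_le hb s x _ d).trans ?_
  linarith [abs_sub_abs_le_abs_sub (logZ fun σ => Real.log (B.v ω σ))
    (logZ fun _ : Conf P => (0 : ℝ))]

/-- The concentration of the mean over the cascade and the disorder, as the roots vary. -/
lemma root_variance {ι : Type} [MeasurableSpace ι] (μ : Measure ι) [IsProbabilityMeasure μ]
    (hN : N ≠ 0) {δ a : ℝ} (hδ : 0 ≤ δ)
    {H : (Fin T → Fin N → ℝ) → ι → Conf P → ℝ}
    (hH : ∀ σ, Measurable fun w : (Fin T → Fin N → ℝ) × ι => H w.1 w.2 σ) {G : (Fin T → Fin N → ℝ) → ℝ}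
    {b : ℝ} (hGm : Measurable G) (hGb : ∀ E, |G E| ≤ b)
    (hG : ∀ E k i y, G E - G (Function.update E k (Function.update (E k) i y)) ≤
      ∫ z, gav (H E z) (fun σ => 2 * a * Real.sqrt δ * |Sphere.Up.sv σ i|) ∂μ) :
    variance G (slotLaw T N) ≤ 4 * a ^ 2 * (δ * T) * N := by
  classical
  set g : Fin N → Conf P → ℝ := fun i σ => 2 * a * Real.sqrt δ * |Sphere.Up.sv σ i| with hg
  set Q := |2 * a * Real.sqrt δ| * Real.sqrt N
  have hgb : ∀ i σ, |g i σ| ≤ Q := fun i σ => by
    simp only [g, Sphere.Up.sv]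
    rw [abs_mul, abs_abs, abs_mul (Real.sqrt N), abs_of_nonneg (Real.sqrt_nonneg (N : ℝ))]
    exact mul_le_mul_of_nonneg_left (mul_le_of_le_one_right (Real.sqrt_nonneg _)
      (Sphere.Perturb.abs_unitVec_le σ i)) (abs_nonneg _)
  have hjm : ∀ i, Measurable fun w : (Fin T → Fin N → ℝ) × ι => gav (H w.1 w.2) (g i) := fun i =>
    Finset.measurable_sum _ fun σ _ => ((hH σ).exp.div
      (Finset.measurable_sum _ fun τ _ => (hH τ).exp)).mul_const _
  have hint : ∀ i E, Integrable (fun z => gav (H E z) (g i)) μ := fun i E =>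
    Integrable.of_bound ((hjm i).comp measurable_prodMk_left).aestronglyMeasurable Q
      (ae_of_all _ fun z => Vale.Agent.P168.Limit.abs_gav_le_of_le _ (hgb i))
  set q : Fin N → (Fin T → Fin N → ℝ) → ℝ := fun i E => ∫ z, gav (H E z) (g i) ∂μ with hq
  have hqm : ∀ i, Measurable (q i) := fun i =>
    (hjm i).stronglyMeasurable.integral_prod_right'.measurable
  have hqb : ∀ i E, |q i E| ≤ Q := fun i E => by
    simpa using norm_integral_le_of_norm_le_const (μ := μ) (f := fun z => gav (H E z) (g i))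
      (C := Q) (ae_of_all _ fun z => Vale.Agent.P168.Limit.abs_gav_le_of_le _ (hgb i))
  -- the squares
  have hsum : ∀ E, ∑ i, q i E ^ 2 ≤ 4 * a ^ 2 * δ * N := by
    intro E
    set S := ∑ i, q i E ^ 2
    have hg2 : ∀ σ, ∑ i, g i σ ^ 2 = 4 * a ^ 2 * δ * N := fun σ => by
      simp only [g, mul_pow, sq_abs, ← Finset.mul_sum,
        Sphere.Up.sum_sv_sq (Nat.pos_of_ne_zero hN), Real.sq_sqrt hδ]
      ring
    have h1 : ∀ z, ∑ i, q i E * gav (H E z) (g i) ≤ (S + 4 * a ^ 2 * δ * N) / 2 := fun z => by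
      simp only [← Vale.Agent.P168.Limit.gav_const_mul]
      rw [← Vale.Agent.P168.Limit.gav_sum]
      refine (Vale.Agent.P168.Limit.gav_mono _ fun σ => ?_).trans_eq
        (Vale.Agent.P168.Limit.gav_const _ _)
      rw [← hg2 σ, ← Finset.sum_add_distrib, Finset.sum_div]
      exact Finset.sum_le_sum fun i _ => by nlinarith [sq_nonneg (q i E - g i σ)]
    have h2 : ∫ z, ∑ i, q i E * gav (H E z) (g i) ∂μ = S := by
      rw [integral_finsetSum _ fun i _ => (hint i E).const_mul _]
      simp only [integral_const_mul, S, sq]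
      rfl
    have h3 := integral_mono (integrable_finsetSum _ fun i (_ : i ∈ Finset.univ) =>
      (hint i E).const_mul (q i E)) (integrable_const _) h1
    rw [h2, integral_const, probReal_univ, one_smul] at h3
    linarith
  -- uncurry
  have hmp := Vale.Agent.P168.Upper.mp_uncurry (ι := Fin T) (κ := Fin N) (gaussianReal 0 1)
  have hcur : Measurable fun (e : Fin T × Fin N → ℝ) => Function.curry e :=
    measurable_pi_lambda _ fun t => measurable_pi_lambda _ fun i => measurable_pi_apply (t, i)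
  set G' : (Fin T × Fin N → ℝ) → ℝ := fun e => G (Function.curry e)
  have hG'm : Measurable G' := hGm.comp hcur
  have e : variance G (slotLaw T N) =
      variance G' (Measure.pi fun _ : Fin T × Fin N => gaussianReal 0 1) := by
    rw [← hmp.variance_fun_comp hG'm.aemeasurable]
    rfl
  rw [e]
  refine (oneSided (fun _ => gaussianReal 0 1) hG'm (fun e => hGb _)
    (q := fun p e => q p.2 (Function.curry e)) (Q := Q) (fun p => (hqm _).comp hcur)
    (fun p e => hqb _ _) fun e p y => ?_).trans ?_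
  · have hu : Function.curry (Function.update e p y) = Function.update (Function.curry e) p.1
        (Function.update (Function.curry e p.1) p.2 y) := by
      funext t i
      obtain ⟨k, j⟩ := p
      by_cases ht : t = k
      · subst ht
        by_cases hi : i = j
        · subst hi; simp [Function.curry]
        · simp [Function.curry, hi]
      · simp [Function.curry, ht]
    simp only [G', hu]
    exact hG _ _ _ _
  · have hi2 : ∀ p : Fin T × Fin N, Integrable (fun e => q p.2 (Function.curry e) ^ 2)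
        (Measure.pi fun _ : Fin T × Fin N => gaussianReal 0 1) := fun p =>
      (MemLp.of_bound ((hqm p.2).comp hcur).aestronglyMeasurable Q (ae_of_all _ fun e => hqb _ _) :
        MemLp (fun e => q p.2 (Function.curry e)) 2 _).integrable_sq
    rw [← integral_finsetSum _ fun p _ => hi2 p]
    refine (integral_mono_of_nonneg (ae_of_all _ fun e => Finset.sum_nonneg fun p _ => sq_nonneg _)
      (integrable_const (4 * a ^ 2 * (δ * T) * N)) (ae_of_all _ fun e => ?_)).trans_eq (by simp)
    simp only [Fintype.sum_prod_type, Finset.sum_const, Finset.card_univ, Fintype.card_fin,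
      nsmul_eq_mul]
    calc (T : ℝ) * ∑ i, q i (Function.curry e) ^ 2 ≤ T * (4 * a ^ 2 * δ * N) :=
          mul_le_mul_of_nonneg_left (hsum _) (Nat.cast_nonneg T)
      _ = _ := by ring

section Abstract

variable {X Y Z : Type*} [MeasurableSpace X] [MeasurableSpace Y] [MeasurableSpace Z]
  {μd : Measure X} {ν : Measure Y} {κ : Measure Z} [IsProbabilityMeasure μd]
  [IsProbabilityMeasure ν] [IsProbabilityMeasure κ] {ψ : X → Y × Z → ℝ} {lg : X → Y → ℝ}
  {c : X → ℝ}

/-- The deviation of a function of three variables from the deviations of its partial means. -/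
lemma dev_le_of_parts (hψm : Measurable (Function.uncurry ψ)) (hlgm : Measurable (Function.uncurry lg))
    (hci : Integrable c μd) (hψb : ∀ d ω, |ψ d ω| ≤ c d) (hlgb : ∀ d E, |lg d E| ≤ c d)
    {V₁ V₂ D : ℝ} (h1 : ∀ ω, ∫ d, |ψ d ω - ∫ d', ψ d' ω ∂μd| ∂μd ≤ V₁)
    (h3 : ∀ (G : Y → ℝ) (b : ℝ), (∀ E, G E = ∫ z, ψ z.2 (E, z.1) ∂κ.prod μd) → Measurable G →
      (∀ E, |G E| ≤ b) → variance G ν ≤ V₂)
    (hD : ∫ p, ∫ t, |ψ p.1 (p.2, t) - lg p.1 p.2| ∂κ ∂μd.prod ν ≤ D) :
    ∫ d, ∫ ω, |ψ d ω - ∫ d', ∫ ω', ψ d' ω' ∂ν.prod κ ∂μd| ∂ν.prod κ ∂μd ≤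
      V₁ + 2 * D + Real.sqrt V₂ := by
  set ρ := ν.prod κ
  have hψi : Integrable (Function.uncurry ψ) (μd.prod ρ) :=
    (hci.comp_fst ρ).mono' hψm.aestronglyMeasurable (ae_of_all _ fun z => hψb z.1 z.2)
  set F : Y × Z → ℝ := fun ω => ∫ d, ψ d ω ∂μd
  have hψm' : Measurable fun z : (Y × Z) × X => ψ z.2 z.1 := hψm.comp measurable_swap
  have hFm : Measurable F := hψm'.stronglyMeasurable.integral_prod_right'.measurable
  set b := ∫ d, c d ∂μd
  have hsec : ∀ ω, Integrable (fun d => ψ d ω) μd := fun ω =>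
    hci.mono' (hψm.comp measurable_prodMk_right).aestronglyMeasurable
      (ae_of_all _ fun d => hψb d ω)
  have hFb : ∀ ω, |F ω| ≤ b := fun ω => abs_integral_le_integral_abs.trans
    (integral_mono (hsec ω).abs hci fun d => hψb d ω)
  have hFi : Integrable F ρ := Integrable.of_bound hFm.aestronglyMeasurable b (ae_of_all _ hFb)
  have hFs : ∀ E, Integrable (fun t => F (E, t)) κ := fun E =>
    Integrable.of_bound (hFm.comp measurable_prodMk_left).aestronglyMeasurable b
      (ae_of_all _ fun t => hFb _)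
  set G : Y → ℝ := fun E => ∫ t, F (E, t) ∂κ
  have hGm : Measurable G := hFm.stronglyMeasurable.integral_prod_right'.measurable
  have hGb : ∀ E, |G E| ≤ b := fun E => by
    simpa using norm_integral_le_of_norm_le_const (μ := κ) (f := fun t => F (E, t)) (C := b)
      (ae_of_all _ fun t => hFb _)
  have hGi : Integrable G ν := Integrable.of_bound hGm.aestronglyMeasurable b (ae_of_all _ hGb)
  have hb0 : ∫ d, ∫ ω, ψ d ω ∂ρ ∂μd = ∫ E, G E ∂ν := by
    rw [integral_integral_swap hψi]
    exact integral_prod F hFi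
  have hGe : ∀ E, G E = ∫ z, ψ z.2 (E, z.1) ∂κ.prod μd := fun E => by
    refine (integral_prod (fun z : Z × X => ψ z.2 (E, z.1)) ?_).symm
    exact (hci.comp_snd κ).mono' (hψm.comp (measurable_snd.prodMk
      (measurable_const.prodMk measurable_fst))).aestronglyMeasurable
      (ae_of_all _ fun z => hψb z.2 (E, z.1))
  have h3' := integral_abs_sub_mean_le (MemLp.of_bound hGm.aestronglyMeasurable b (ae_of_all _ hGb))
    (h3 G b hGe hGm hGb)
  set h : X → Y × Z → ℝ := fun d ω => |ψ d ω - lg d ω.1|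
  have hhm : Measurable (Function.uncurry h) :=
    (hψm.sub (hlgm.comp (measurable_fst.prodMk (measurable_fst.comp measurable_snd)))).abs
  have hhb : ∀ d ω, |h d ω| ≤ c d + c d := fun d ω => by
    simp only [h, abs_abs]
    exact (abs_sub _ _).trans (add_le_add (hψb d ω) (hlgb d ω.1))
  have hbi : Integrable (fun d => c d + c d) μd := hci.add hci
  have hhi : Integrable (Function.uncurry h) (μd.prod ρ) :=
    (hbi.comp_fst ρ).mono' hhm.aestronglyMeasurable (ae_of_all _ fun z => hhb z.1 z.2)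
  have hh : ∫ ω, ∫ d, h d ω ∂μd ∂ρ ≤ D := by
    have hs2 : ∀ d, Integrable (fun ω => h d ω) ρ := fun d =>
      Integrable.of_bound (hhm.comp measurable_prodMk_left).aestronglyMeasurable
        (c d + c d) (ae_of_all _ fun ω => hhb d ω)
    have hm2 : Measurable fun w : (X × Y) × Z => h w.1.1 (w.1.2, w.2) :=
      hhm.comp (f := fun w : (X × Y) × Z => (w.1.1, (w.1.2, w.2)))
        ((measurable_fst.comp measurable_fst).prodMk
          ((measurable_snd.comp measurable_fst).prodMk measurable_snd))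
    have hi3 : Integrable (fun z : X × Y => ∫ t, h z.1 (z.2, t) ∂κ) (μd.prod ν) := by
      refine (hbi.comp_fst ν).mono' hm2.stronglyMeasurable.integral_prod_right'.aestronglyMeasurable
        (ae_of_all _ fun z => ?_)
      simpa using norm_integral_le_of_norm_le_const (μ := κ) (f := fun t => h z.1 (z.2, t))
        (C := c z.1 + c z.1) (ae_of_all _ fun t => hhb _ _)
    rw [← integral_integral_swap hhi]
    have e2 : ∫ d, ∫ ω, h d ω ∂ρ ∂μd = ∫ z, ∫ t, h z.1 (z.2, t) ∂κ ∂μd.prod ν := by
      rw [integral_prod _ hi3]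
      exact integral_congr_ae (ae_of_all _ fun d => integral_prod _ (hs2 d))
    rw [e2]
    exact hD
  have h2 : ∫ ω, |F ω - G ω.1| ∂ρ ≤ 2 * D := by
    set w : Y × Z → ℝ := fun ω => ∫ d, h d ω ∂μd
    have hwi : Integrable w ρ := hhi.integral_prod_right
    set gΦ : Y → ℝ := fun E => ∫ d, lg d E ∂μd
    have hFg : ∀ ω, |F ω - gΦ ω.1| ≤ w ω := fun ω => by
      have hl : Integrable (fun d => lg d ω.1) μd :=
        hci.mono' (hlgm.comp measurable_prodMk_right).aestronglyMeasurable
          (ae_of_all _ fun d => hlgb d ω.1)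
      simp only [F, gΦ, w, h]
      rw [← integral_sub (hsec ω) hl]
      exact abs_integral_le_integral_abs
    have hGg : ∀ E, Integrable (fun t => w (E, t)) κ → |G E - gΦ E| ≤ ∫ t, w (E, t) ∂κ := by
      intro E hwE
      have : G E - gΦ E = ∫ t, (F (E, t) - gΦ E) ∂κ := by
        rw [integral_sub (hFs E) (integrable_const _)]
        simp [G]
      rw [this]
      exact abs_integral_le_integral_abs.trans
        (integral_mono ((hFs E).sub (integrable_const _)).abs hwE fun t => hFg (E, t))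
    have hW : Integrable (fun ω : Y × Z => ∫ t, w (ω.1, t) ∂κ) ρ :=
      hwi.integral_prod_left.comp_fst κ
    refine le_trans (integral_mono_of_nonneg (ae_of_all _ fun ω => abs_nonneg _) (hwi.add hW) ?_)
      (le_of_eq_of_le ?_ (show ∫ ω, w ω ∂ρ + ∫ ω, w ω ∂ρ ≤ 2 * D by linarith [hh]))
    · filter_upwards [Measure.quasiMeasurePreserving_fst.ae hwi.prod_right_ae] with ω hω
      simp only [Pi.add_apply]
      have := hGg ω.1 hω
      rw [abs_sub_comm] at this
      linarith [abs_sub_le (F ω) (gΦ ω.1) (G ω.1), hFg ω]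
    · rw [integral_add' hwi hW, integral_fun_fst (fun E => ∫ t, w (E, t) ∂κ),
        integral_prod w hwi]
      simp
  rw [hb0]
  set b0 := ∫ E, G E ∂ν
  have hdev : Integrable (Function.uncurry fun d ω => |ψ d ω - b0|) (μd.prod ρ) :=
    (hψi.sub (integrable_const b0)).abs
  rw [integral_integral_swap hdev]
  have hR : Integrable (fun ω => |F ω - G ω.1|) ρ := (hFi.sub (hGi.comp_fst κ)).abs
  have hG0 : Integrable (fun ω : Y × Z => |G ω.1 - b0|) ρ :=
    ((hGi.sub (integrable_const b0)).abs).comp_fst κ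
  have hRG : Integrable (fun ω => |F ω - G ω.1| + |G ω.1 - b0|) ρ := hR.add hG0
  refine (integral_mono_of_nonneg (ae_of_all _ fun ω => integral_nonneg fun d => abs_nonneg _)
    ((integrable_const V₁).add hRG) (ae_of_all _ fun ω => ?_)).trans ?_
  · have hc1 : Integrable (fun d => |ψ d ω - F ω|) μd :=
      ((hsec ω).sub (integrable_const _)).abs
    refine (integral_mono ((hsec ω).sub (integrable_const _)).abs
      (hc1.add (integrable_const (|F ω - G ω.1| + |G ω.1 - b0|))) fun d => ?_).trans ?_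
    · simp only [Pi.add_apply, Pi.sub_apply]
      linarith [abs_sub_le (ψ d ω) (F ω) b0, abs_sub_le (F ω) (G ω.1) b0]
    · rw [integral_add' hc1 (integrable_const _)]
      simp only [integral_const, probReal_univ, one_smul, Pi.add_apply]
      linarith [h1 ω]
  · rw [integral_add' (integrable_const _) hRG, integral_add hR hG0,
      integral_fun_fst (fun E => |G E - b0|)]
    simp only [integral_const, probReal_univ, one_smul]
    linarith

end Abstract

/-- The mean over the cascade and the disorder moves little with the roots. -/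
lemma rootPart (hN : N ≠ 0) {f : ℝ → ℝ} (hfc : Continuous f) {δ a : ℝ} (hδ : 0 ≤ δ) (ha : 0 ≤ a)
    (m : Fin r → ℝ) (ks : Fin T → Fin (r + 1)) {n : Fin r → ℕ} (hn : ∀ i, 0 < n i) (s μ : ℝ)
    (x : Fin L → ℝ) {G : (Fin T → Fin N → ℝ) → ℝ} {b : ℝ}
    (hi : ∀ E, Integrable (fun z : CascTree (Fin T → Fin N → ℝ) r n × Dis N L =>
        basePsi (truncBase P δ a m ks n) f s x z.2 (E, z.1))
      ((cascLaw (slotLaw T N) r n).prod (disLaw N L μ)))
    (hGe : ∀ E, G E = ∫ z, basePsi (truncBase P δ a m ks n) f s x z.2 (E, z.1)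
      ∂(cascLaw (slotLaw T N) r n).prod (disLaw N L μ))
    (hGm : Measurable G) (hGb : ∀ E, |G E| ≤ b) :
    variance G (slotLaw T N) ≤ 4 * a ^ 2 * (δ * T) * N := by
  have hvH : ∀ σ, Measurable fun w : (Fin T → Fin N → ℝ) ×
      (CascTree (Fin T → Fin N → ℝ) r n × Dis N L) =>
        Real.log (truncV δ a m ks n (w.1, w.2.1) σ) + Sphere.totalH (P := P) f s x w.2.2 σ := fun σ =>
    ((((truncBase P δ a m ks n).meas σ).comp
      (measurable_fst.prodMk (measurable_fst.comp measurable_snd))).log).add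
      (((Sphere.Perturb.measurable_totalH hfc s σ).comp (f := fun d : Dis N L => (x, d))
        measurable_prodMk_left).comp (measurable_snd.comp measurable_snd))
  refine root_variance (P := P) ((cascLaw (slotLaw T N) r n).prod (disLaw N L μ)) hN hδ
    (H := fun E z σ => Real.log (truncV δ a m ks n (E, z.1) σ) + Sphere.totalH f s x z.2 σ)
    hvH hGm hGb fun E k i y => ?_
  set E' := Function.update E k (Function.update (E k) i y)
  rw [hGe E, hGe E', ← integral_sub (hi E) (hi E')]
  set g : Conf P → ℝ := fun σ => 2 * a * Real.sqrt δ * |Sphere.Up.sv σ i| with hg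
  refine integral_mono_ae ((hi E).sub (hi E')) (Integrable.of_bound
    ((Finset.measurable_sum _ fun σ _ => ((hvH σ).exp.div
      (Finset.measurable_sum _ fun τ _ => (hvH τ).exp)).mul_const (g σ)).comp
        (measurable_prodMk_left (x := E))).aestronglyMeasurable (∑ σ, |g σ|) ?_) ?_
  · refine ae_of_all _ fun z => Vale.Agent.P168.Limit.abs_gav_le_of_le _ fun σ => ?_
    exact Finset.single_le_sum (f := fun τ => |g τ|) (fun τ _ => abs_nonneg _) (Finset.mem_univ σ)
  filter_upwards [Measure.quasiMeasurePreserving_fst.ae (ae_good (slotLaw T N) r n)] with z hz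
  have hle := logZ_mono (H := fun σ =>
      (Real.log (truncV δ a m ks n (E, z.1) σ) + Sphere.totalH f s x z.2 σ) + -g σ)
    (H' := fun σ => Real.log (truncV δ a m ks n (E', z.1) σ) + Sphere.totalH f s x z.2 σ) fun σ => by
      have := log_truncV_update_ge (P := P) (δ := δ) ha m ks hn E k i y hz σ
      simp only [g, E']
      linarith
  have hj := Vale.Agent.P168.Limit.SelfAvg.gav_le_logZ_sub'
    (fun σ => Real.log (truncV δ a m ks n (E, z.1) σ) + Sphere.totalH f s x z.2 σ) fun σ => -g σ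
  have hneg : ∀ Hz : Conf P → ℝ, gav Hz (fun σ => -g σ) = -gav Hz g := fun Hz => by
    simp [gav, Finset.sum_neg_distrib]
  rw [hneg] at hj
  refine le_of_eq_of_le (congrArg₂ (fun u v : ℝ => u - v)
    (basePsi_eq_dz (truncBase P δ a m ks n) f s x z.2 (E, z.1))
    (basePsi_eq_dz (truncBase P δ a m ks n) f s x z.2 (E', z.1))) ?_
  show logZ (fun σ => Real.log (truncV δ a m ks n (E, z.1) σ) + Sphere.totalH f s x z.2 σ) -
    logZ (fun σ => Real.log (truncV δ a m ks n (E', z.1) σ) + Sphere.totalH f s x z.2 σ) ≤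
      gav (fun σ => Real.log (truncV δ a m ks n (E, z.1) σ) + Sphere.totalH f s x z.2 σ) g
  linarith

/-- The mean absolute deviation for one truncated cascade. -/
lemma baseDev_le (hN : N ≠ 0) {f : ℝ → ℝ} {A : ℝ} (hfc : Continuous f) (hb : ∀ z, |f z| ≤ A)
    {δ a : ℝ} (hδ : 0 ≤ δ) (ha : 0 ≤ a) {m : Fin r → ℝ} (hm : Exps m) (ks : Fin T → Fin (r + 1))
    {n : Fin r → ℕ} (hn : ∀ i, 0 < n i) (s : ℝ) {μ : ℝ} (hμ : 0 ≤ μ) {x : Fin L → ℝ}
    (hx : ∀ p, |x p| ≤ 3) {D : ℝ}
    (hD : ∫ z, ∫ t, |Real.log (cascMean m n (slotY P f δ a ks s x z) t) -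
        Real.log (genNested (slotLaw T N) m (slotY P f δ a ks s x z))| ∂cascLaw (slotLaw T N) r n
          ∂(disLaw N L μ).prod (slotLaw T N) ≤ D) :
    baseDev (truncBase P δ a m ks n) f s x μ ≤
      Real.sqrt (6 * s ^ 2 + 3 * A ^ 2 * μ) + 2 * D + Real.sqrt (4 * a ^ 2 * (δ * T) * N) := by
  have : NeZero N := ⟨hN⟩
  have hA : 0 ≤ A := (abs_nonneg _).trans (hb 0)
  set B := truncBase P δ a m ks n with hB
  set K := |logZ fun _ : Conf P => (0 : ℝ)| + |B.bd| + T * (Real.sqrt δ * (N * a)) with hKd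
  set c : Dis N L → ℝ := fun d => K + (A * d.1 + (|s| * ∑ p, |x p|) * absJ d.2.2) with hc
  have hM : 0 ≤ (T : ℝ) * (Real.sqrt δ * (N * a)) := by positivity
  have hc0 : ∀ d : Dis N L, 0 ≤ A * d.1 + (|s| * ∑ p, |x p|) * absJ d.2.2 := fun d => by
    have : 0 ≤ absJ d.2.2 := Finset.sum_nonneg fun _ _ => abs_nonneg _
    positivity
  have hci : Integrable c (disLaw N L μ) :=
    (integrable_const K).add (((((Vale.Agent.P168.Toolkit.memLp_count _).comp_fst _).const_mul A :
      MemLp (fun d : Dis N L => A * (d.1 : ℝ)) 2 (disLaw N L μ)).add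
        ((memLp_absJ μ).const_mul _)).integrable one_le_two)
  have hψb : ∀ d (ω : B.Ω), |basePsi B f s x d ω| ≤ c d := fun d ω => by
    refine (abs_basePsi_le B hb s x d ω).trans ?_
    simp only [hc, hKd]
    linarith [le_abs_self B.bd]
  refine dev_le_of_parts (ν := slotLaw T N) (κ := cascLaw (slotLaw T N) r n)
    (lg := fun d E => Real.log (genNested (slotLaw T N) m (slotY P f δ a ks s x (d, E))))
    (ψ := fun d ω => basePsi B f s x d ω) (measurable_basePsi B hfc s x)
    (Vale.Agent.P168.Upper.measurable_genNested (slotLaw T N) m _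
      (measurable_slotY (P := P) hfc δ a ks s x)).log hci hψb (fun d E => ?_) (fun ω => ?_)
    (fun G b hGe hGm hGb => rootPart (P := P) hN hfc hδ ha m ks hn s μ x (fun E => ?_) hGe hGm hGb) ?_
  · have hY := bdd_slotY (P := P) hfc (δ := δ) ha ks s x (d, E)
      (c := A * d.1 + (|s| * ∑ p, |x p|) * absJ d.2.2) fun σ => abs_totalH_le hb s x d σ
    have hG := genNested_mem (slotLaw T N) hY.pos hm hY.meas hY.mem
    refine (abs_log_le hY.pos hG.1 hG.2).trans ?_
    rw [Real.log_exp, abs_of_nonneg (add_nonneg (hc0 d) hM)]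
    simp only [hc, hKd]
    linarith [abs_nonneg (logZ fun _ : Conf P => (0 : ℝ)), abs_nonneg B.bd]
  · have e : (fun d => basePsi B f s x d ω) = dz f s x fun σ => Real.log (B.v ω σ) :=
      funext fun d => basePsi_eq_dz B f s x d ω
    refine integral_abs_sub_mean_le (g := fun d => basePsi B f s x d ω) ?_ ?_
    · rw [e]; exact memLp_dz hfc hb s μ x _
    · rw [e]; exact dz_variance hfc hb s hμ hx _
  · exact (hci.comp_snd _).mono' ((measurable_basePsi B hfc s x).comp
      (measurable_snd.prodMk (measurable_const.prodMk measurable_fst))).aestronglyMeasurable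
      (ae_of_all _ fun z => hψb z.2 (E, z.1))
  · refine le_trans (le_of_eq (integral_congr_ae (ae_of_all _ fun z => ?_))) hD
    refine integral_congr_ae ((ae_good (slotLaw T N) r n).mono fun t ht => ?_)
    simp only
    rw [basePsi_eq (P := P) ha m ks hn s x z.1 z.2 ht]

/-- The free energy of the truncated cascades concentrates. -/
theorem concStmt : ConcStmt := by
  intro r m hm α A R a ha
  have hL := devLim_nonneg hm
  refine ⟨3 + 2 * |A| * (Real.sqrt |α| + 1) + 2 * a * Real.sqrt |R| + 2 * (2 * devLim m + 1),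
    by positivity, fun N L T P f hN hf δ hδ hR ks s μ hs hμ hμα x hx => ?_⟩
  have : NeZero N := ⟨hN⟩
  have hfc : Continuous f := hf.d0.continuous
  have hA : 0 ≤ A := (abs_nonneg _).trans (hf.b0 0)
  set M : ℝ := T * (Real.sqrt δ * (N * a))
  set c : Dis N L → ℝ := fun d => A * d.1 + (|s| * ∑ p, |x p|) * absJ d.2.2 with hc
  have hc0 : ∀ d, 0 ≤ c d := fun d => by
    have : 0 ≤ absJ d.2.2 := Finset.sum_nonneg fun _ _ => abs_nonneg _
    positivity
  have hci : Integrable c (disLaw N L μ) :=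
    ((((Vale.Agent.P168.Toolkit.memLp_count _).comp_fst _).const_mul A :
      MemLp (fun d : Dis N L => A * (d.1 : ℝ)) 2 (disLaw N L μ)).add
        ((memLp_absJ μ).const_mul _)).integrable one_le_two
  have hΛ : Integrable (fun z : Dis N L × (Fin T → Fin N → ℝ) => c z.1 + M)
      ((disLaw N L μ).prod (slotLaw T N)) := (hci.comp_fst _).add (integrable_const M)
  have hev := eventually_meanDev (slotLaw T N) ((disLaw N L μ).prod (slotLaw T N)) hm
    (measurable_slotY (P := P) hfc δ a ks s x) hΛ fun z =>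
      ⟨_, bdd_slotY hfc ha ks s x z (c := c z.1) fun σ => abs_totalH_le hf.b0 s x z.1 σ,
        by rw [Real.log_exp, abs_of_nonneg (add_nonneg (hc0 _) (by positivity))]⟩
  filter_upwards [hev, eventually_pos r] with n hn hpos
  refine (baseDev_le hN hfc hf.b0 hδ ha hm ks hpos s hμ hx hn).trans ?_
  have hN1 : 0 ≤ Real.sqrt N := Real.sqrt_nonneg _
  have e1 : Real.sqrt (6 * s ^ 2 + 3 * A ^ 2 * μ) ≤
      3 * s + 2 * |A| * (Real.sqrt |α| * Real.sqrt N + 1) := by
    have hsμ : Real.sqrt μ ≤ Real.sqrt |α| * Real.sqrt N + 1 := by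
      rw [← Real.sqrt_mul (abs_nonneg α)]
      refine Real.sqrt_le_iff.2 ⟨by positivity, ?_⟩
      have := Real.sq_sqrt (mul_nonneg (abs_nonneg α) (Nat.cast_nonneg N : (0 : ℝ) ≤ N))
      nlinarith [Real.sqrt_nonneg (|α| * N), mul_le_mul_of_nonneg_right (le_abs_self α)
        (Nat.cast_nonneg N : (0 : ℝ) ≤ N)]
    refine le_trans ?_ (add_le_add le_rfl (mul_le_mul_of_nonneg_left hsμ (by positivity)))
    refine Real.sqrt_le_iff.2 ⟨by positivity, ?_⟩
    have e : (2 * |A| * Real.sqrt μ) ^ 2 = 4 * A ^ 2 * μ := by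
      rw [mul_pow, mul_pow, sq_abs, Real.sq_sqrt hμ]; ring
    nlinarith [mul_nonneg (mul_nonneg (abs_nonneg A) (Real.sqrt_nonneg μ)) hs,
      mul_nonneg (sq_nonneg A) hμ, sq_nonneg s]
  have e2 : Real.sqrt (4 * a ^ 2 * (δ * T) * N) ≤ 2 * a * Real.sqrt |R| * Real.sqrt N := by
    refine Real.sqrt_le_iff.2 ⟨by positivity, ?_⟩
    rw [mul_pow, mul_pow, Real.sq_sqrt (abs_nonneg R), Real.sq_sqrt (Nat.cast_nonneg N)]
    calc 4 * a ^ 2 * (δ * T) * N ≤ 4 * a ^ 2 * |R| * N := by
          gcongr; exact hR.trans (le_abs_self R)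
      _ = _ := by ring
  nlinarith [mul_nonneg (mul_nonneg (abs_nonneg A) (Real.sqrt_nonneg |α|)) (add_nonneg hs zero_le_one),
    mul_nonneg (abs_nonneg A) (add_nonneg hN1 hs), mul_nonneg (mul_nonneg ha (Real.sqrt_nonneg |R|))
      (add_nonneg hs zero_le_one), mul_nonneg hL (add_nonneg hN1 hs)]

end Vale.Agent.P157.Parisi.Full.Conc
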